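import Crest.Agent.H0254.Chain

set_option autoImplicit false

namespace Crest.Agent.H0254

open Filter MeasureTheory ENNReal ProbabilityTheory Topology

noncomputable section

variable {I : Type*} [DecidableEq I] [Countable I] {ν : Measure (I → Bool)}
  [IsProbabilityMeasure ν] {Λ : I → ℕ → Finset I}
  {R : ℝ → (I → ℝ) → unitInterval → (I → Bool)}

def errA (C δ : ℝ) (k : ℕ) : ℝ := 3 * δ / 2 * ((1 + 2 * C * δ) ^ k - 1)

lemma errA_succ (C δ : ℝ) (k : ℕ) :
    errA C δ (k + 1) = errA C δ k * (1 + 2 * C * δ) + 3 * C * δ ^ 2 := by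
  unfold errA; ring

lemma errA_nonneg {C δ : ℝ} (hC : 0 ≤ C) (hδ : 0 ≤ δ) (k : ℕ) : 0 ≤ errA C δ k := by
  unfold errA
  have : 1 ≤ (1 + 2 * C * δ) ^ k := one_le_pow₀ (by nlinarith [mul_nonneg hC hδ])
  exact mul_nonneg (by positivity) (by linarith)

lemma measurable_eul' (p : Finset I → ℝ) (Λ : I → ℕ → Finset I) (δ : ℝ) (k : ℕ) :
    Measurable fun z : I → ℝ => eul p Λ δ z k :=
  measurable_pi_lambda _ fun i => measurable_eul (Θ := I → ℝ) (p := fun _ => p)
    (fun _ => measurable_const) (Λ := fun _ => Λ) (fun _ _ _ => MeasurableSet.const _) δ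
    (z := fun z => z) (fun j => measurable_pi_apply j) k i

omit [Countable I] in
/-- one coarse block of the fine chain. -/
lemma block_bound {C : ℝ} (hL : LipMean (pOf ν) C) {ε δ : ℝ} (hε : 0 < ε) {r : ℕ}
    (hr : r * ε = δ) (w : Om I) (k : ℕ) (i : I) :
    |chain R ε w ((k + 1) * r) i - chain R ε w (k * r) i -
      δ * drift (pOf ν) Λ i (fun j => hf (k * δ) (chain R ε w (k * r) j))| ≤
      ε * |∑ l ∈ Finset.range r, xi ν Λ R ε i (k * r + l) w| + 3 * C * δ ^ 2 := by
  set D := drift (pOf ν) Λ i (fun j => hf (k * δ) (chain R ε w (k * r) j)) with hD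
  set Dl : ℕ → ℝ := fun l => drift (pOf ν) Λ i
    (fun j => hf ((k * r + l : ℕ) * ε) (chain R ε w (k * r + l) j)) with hDl
  have h1 : chain R ε w ((k + 1) * r) i - chain R ε w (k * r) i - δ * D =
      ε * ∑ l ∈ Finset.range r, xi ν Λ R ε i (k * r + l) w +
        ε * ∑ l ∈ Finset.range r, (Dl l - D) := by
    rw [add_mul, one_mul, chain_add, ← mul_add, ← Finset.sum_add_distrib]
    simp only [xi, hDl, sub_add_sub_cancel, Finset.sum_sub_distrib, Finset.sum_const,
      Finset.card_range, nsmul_eq_mul, ← hr]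
    ring
  have h2 : ∀ l ∈ Finset.range r, |Dl l - D| ≤ C * (3 * δ) := by
    intro l hl
    have hl' : (l : ℝ) * ε ≤ δ := by
      rw [← hr]; gcongr; exact (Finset.mem_range.1 hl).le
    refine drift_lip (mean_mem ν) hL i _ _ _ fun j => (hf_lip _ _ _ _).trans ?_
    have e1 := chain_incr (R := R) hε.le w (k * r) l j
    have e2 : ((k * r + l : ℕ) : ℝ) * ε - k * δ = l * ε := by push_cast; rw [← hr]; ring
    rw [e2, abs_of_nonneg e1.1, abs_of_nonneg (by positivity)]
    linarith [e1.2]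
  rw [h1]
  refine (abs_add_le _ _).trans (add_le_add ?_ ?_)
  · rw [abs_mul, abs_of_pos hε]
  · rw [abs_mul, abs_of_pos hε]
    have : |∑ l ∈ Finset.range r, (Dl l - D)| ≤ r * (C * (3 * δ)) := by
      refine (Finset.abs_sum_le_sum_abs _ _).trans ((Finset.sum_le_sum h2).trans ?_)
      simp
    calc _ ≤ ε * (r * (C * (3 * δ))) := by gcongr
      _ = (r * ε) * (C * (3 * δ)) := by ring
      _ = _ := by rw [hr]; ring

theorem approx (hR : ∀ t, Measurable (Function.uncurry (R t)))
    (hlaw : ∀ t, ((muT ν t).prod volume).map (fun q => (q.1, R t q.1 q.2)) =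
        (P0 ν).map (fun w => (Xt t w, w.1)))
    (hdr : ∀ t i, ∀ᵐ x ∂muT ν t, ∫ u, bit (R t x u i) = drift (pOf ν) Λ i (fun j => hf t (x j)))
    {C : ℝ} (hC : 0 ≤ C) (hL : LipMean (pOf ν) C) {δ : ℝ} (hδ : 0 < δ) {ε : ℕ → ℝ}
    (hε : ∀ n, 0 < ε n) (hε0 : Tendsto ε atTop (𝓝 0)) {r : ℕ → ℕ}
    (hr : ∀ᶠ n in atTop, r n * ε n = δ) (k : ℕ) (i : I) {η : ℝ} (hη : 0 < η) :
    Tendsto (fun n => (PP I).real
      {w | errA C δ k + η < |chain R (ε n) w (k * r n) i - eul (pOf ν) Λ δ w.1 k i|})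
      atTop (𝓝 0) := by
  induction k generalizing i η with
  | zero =>
    have : ∀ n, {w : Om I | errA C δ 0 + η <
        |chain R (ε n) w (0 * r n) i - eul (pOf ν) Λ δ w.1 0 i|} = ∅ := by
      intro n
      ext w
      simp [errA, chain, eul, hη.le]
    simp only [this, measureReal_empty]
    exact tendsto_const_nhds
  | succ k ih =>
    rw [Metric.tendsto_nhds]
    intro θ hθ
    obtain ⟨η', hη'0, hη'1, hη'2⟩ : ∃ η' : ℝ, 0 < η' ∧ η' * (2 + 2 * C * δ + 2 * δ) ≤ η ∧
        η' ≤ θ / 2 := by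
      refine ⟨min (η / (2 + 2 * C * δ + 2 * δ)) (θ / 2), by positivity, ?_, min_le_right _ _⟩
      rw [← le_div_iff₀ (by positivity)]
      exact min_le_left _ _
    have hxm : Measurable fun w : Om I => eul (pOf ν) Λ δ w.1 k :=
      (measurable_eul' _ Λ δ k).comp measurable_fst
    set β : Measure (I → ℝ) := (PP I).map fun w => eul (pOf ν) Λ δ w.1 k with hβ
    obtain ⟨E, N, hEm, hE, hEL⟩ := exists_good_set (muT ν (k * δ) + β)
      (a := fun n x => mean (pOf ν) (Λ i n) i (fun j => hf (k * δ) (x j)))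
      (fun n => (measurable_mean _ _ i).comp (by unfold hf; fun_prop))
      (fun n x => mean_mem ν _ _ _) hη'0
    set s : Finset I := (Finset.range (N + 1)).biUnion (Λ i) with hs
    have hsum : Tendsto (fun n => (PP I).real
        {w | errA C δ k + η' < |chain R (ε n) w (k * r n) i - eul (pOf ν) Λ δ w.1 k i|} +
        ∑ j ∈ s, (PP I).real
        {w | errA C δ k + η' < |chain R (ε n) w (k * r n) j - eul (pOf ν) Λ δ w.1 k j|} +
        ε n * (δ / η' ^ 2)) atTop (𝓝 0) := by
      have := ((ih i hη'0).add (tendsto_finsetSum s fun j _ => ih j hη'0)).add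
        (hε0.mul_const (δ / η' ^ 2))
      simpa using this
    filter_upwards [hsum.eventually (gt_mem_nhds (half_pos hθ)), hr] with n hn hrn
    rw [Real.dist_eq, sub_zero, abs_of_nonneg measureReal_nonneg]
    have hsub : {w : Om I | errA C δ (k + 1) + η <
        |chain R (ε n) w ((k + 1) * r n) i - eul (pOf ν) Λ δ w.1 (k + 1) i|} ⊆
        (({w | errA C δ k + η' < |chain R (ε n) w (k * r n) i - eul (pOf ν) Λ δ w.1 k i|} ∪
        ⋃ j ∈ s, {w | errA C δ k + η' <
          |chain R (ε n) w (k * r n) j - eul (pOf ν) Λ δ w.1 k j|}) ∪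
        {w | η' < ε n * |∑ l ∈ Finset.range (r n), xi ν Λ R (ε n) i (k * r n + l) w|}) ∪
        ((fun w => chain R (ε n) w (k * r n)) ⁻¹' Eᶜ ∪
          (fun w => eul (pOf ν) Λ δ w.1 k) ⁻¹' Eᶜ) := by
      intro w hw
      by_contra hcon
      simp only [Set.mem_union, Set.mem_ofPred_eq, Set.mem_iUnion, Set.mem_preimage,
        Set.mem_compl_iff, not_or, not_lt, not_exists, not_not] at hcon hw
      obtain ⟨⟨⟨g1, g2⟩, g3⟩, g4, g5⟩ := hcon
      have ha := errA_nonneg hC hδ.le k
      have b1 := block_bound (Λ := Λ) (R := R) hL (hε n) hrn w k i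
      have b2 := hEL _ g4 _ g5 (C * (2 * (errA C δ k + η'))) fun m hm =>
        hL _ _ _ _ _ (by positivity) fun j hj => by
          refine (hf_lip _ _ _ _).trans ?_
          have := g2 j (Finset.mem_biUnion.2 ⟨m, Finset.mem_range.2 (by omega), hj⟩)
          simp only [sub_self, abs_zero, add_zero]
          linarith
      change |drift (pOf ν) Λ i (fun j => hf (k * δ) (chain R (ε n) w (k * r n) j)) -
        drift (pOf ν) Λ i (fun j => hf (k * δ) (eul (pOf ν) Λ δ w.1 k j))| ≤ _ at b2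
      simp only [eul] at hw
      set D1 := drift (pOf ν) Λ i (fun j => hf (k * δ) (chain R (ε n) w (k * r n) j))
      set D2 := drift (pOf ν) Λ i (fun j => hf (k * δ) (eul (pOf ν) Λ δ w.1 k j))
      have b3 : |δ * D1 - δ * D2| ≤ δ * (C * (2 * (errA C δ k + η')) + 2 * η') := by
        rw [← mul_sub, abs_mul, abs_of_pos hδ]; gcongr
      rw [errA_succ] at hw
      have b4 := abs_le.1 b1
      have b5 := abs_le.1 b3
      have b6 := abs_le.1 g1
      have : |chain R (ε n) w ((k + 1) * r n) i - (eul (pOf ν) Λ δ w.1 k i + δ * D2)| ≤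
          errA C δ k * (1 + 2 * C * δ) + 3 * C * δ ^ 2 + η := by
        rw [abs_le]; constructor <;> nlinarith
      linarith
    refine (measureReal_mono hsub (measure_ne_top _ _)).trans_lt ?_
    refine (measureReal_union_le _ _).trans_lt ?_
    have c1 := measureReal_union_le (μ := PP I)
      ((fun w => chain R (ε n) w (k * r n)) ⁻¹' Eᶜ) ((fun w => eul (pOf ν) Λ δ w.1 k) ⁻¹' Eᶜ)
    rw [← map_measureReal_apply (measurable_chain hR _ _) hEm.compl,
      ← map_measureReal_apply hxm hEm.compl, law_chain hR hlaw, ← hβ] at c1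
    have e : ((k * r n : ℕ) : ℝ) * ε n = k * δ := by push_cast; rw [← hrn]; ring
    rw [e, ← measureReal_add_apply] at c1
    have c2 := noise_prob hR hlaw hdr (hε n) i (k * r n) (r n) hη'0
    rw [hrn] at c2
    have c3 := measureReal_biUnion_finset_le (μ := PP I) s fun j =>
      {w : Om I | errA C δ k + η' < |chain R (ε n) w (k * r n) j - eul (pOf ν) Λ δ w.1 k j|}
    refine lt_of_le_of_lt (add_le_add ((measureReal_union_le _ _).trans
      (add_le_add ((measureReal_union_le _ _).trans (add_le_add le_rfl c3)) c2))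
      (c1.trans hE)) ?_
    linarith

end

end Crest.Agent.H0254
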