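import Crest.Agent.H0254.Posterior

set_option autoImplicit false

namespace Crest.Agent.H0254

open Filter MeasureTheory ENNReal ProbabilityTheory Topology

noncomputable section

lemma tendsto_real_zero {X : Type*} [MeasurableSpace X] (μ : Measure X) [IsFiniteMeasure μ]
    {B : ℕ → Set X} (hB : ∀ n, MeasurableSet (B n)) (h : ∀ᵐ x ∂μ, ∀ᶠ n in atTop, x ∉ B n) :
    Tendsto (fun n => μ.real (B n)) atTop (𝓝 0) := by
  set C : ℕ → Set X := fun N => ⋃ n, ⋃ _ : N ≤ n, B n with hC
  have hCm : ∀ N, MeasurableSet (C N) := fun N =>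
    MeasurableSet.iUnion fun n => MeasurableSet.iUnion fun _ => hB n
  have hanti : Antitone C := by
    intro N M hNM x hx
    simp only [hC, Set.mem_iUnion] at hx ⊢
    obtain ⟨n, hn, hx⟩ := hx
    exact ⟨n, hNM.trans hn, hx⟩
  have h1 := tendsto_measure_iInter_atTop (μ := μ) (fun N => (hCm N).nullMeasurableSet) hanti
    ⟨0, measure_ne_top _ _⟩
  have h0 : μ (⋂ N, C N) = 0 := by
    rw [measure_eq_zero_iff_ae_notMem]
    filter_upwards [h] with x hx
    obtain ⟨N, hN⟩ := eventually_atTop.1 hx
    simp only [hC, Set.mem_iInter, Set.mem_iUnion, not_forall, not_exists]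
    exact ⟨N, fun n hn => hN n hn⟩
  rw [h0] at h1
  have h2 : Tendsto (fun N => μ.real (C N)) atTop (𝓝 0) := by
    exact (ENNReal.tendsto_toReal ENNReal.zero_ne_top).comp h1
  refine squeeze_zero (fun _ => measureReal_nonneg) (fun n => ?_) h2
  refine measureReal_mono (fun x hx => ?_) (measure_ne_top _ _)
  simp only [hC, Set.mem_iUnion]
  exact ⟨n, le_rfl, hx⟩

lemma exists_good_set {X : Type*} [MeasurableSpace X] (α : Measure X) [IsFiniteMeasure α]
    {a : ℕ → X → ℝ} (ha : ∀ n, Measurable (a n)) (h01 : ∀ n x, a n x ∈ Set.Icc (0 : ℝ) 1)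
    {η : ℝ} (hη : 0 < η) :
    ∃ (E : Set X) (N : ℕ), MeasurableSet E ∧ α.real Eᶜ ≤ η ∧ ∀ x ∈ E, ∀ x' ∈ E, ∀ c : ℝ,
      (∀ n ≤ N, |a n x - a n x'| ≤ c) →
      |limsup (fun n => a n x) atTop - limsup (fun n => a n x') atTop| ≤ c + 2 * η := by
  set L : X → ℝ := fun x => limsup (fun n => a n x) atTop with hL
  have hLm : Measurable L := Measurable.limsup ha
  set A : ℕ → Set X := fun N => ⋂ n, ⋂ _ : N ≤ n, {x | a n x < L x + η} with hA
  have hAm : ∀ N, MeasurableSet (A N) := fun N => MeasurableSet.iInter fun n =>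
    MeasurableSet.iInter fun _ => measurableSet_lt (ha n) (hLm.add_const η)
  have h1 := tendsto_real_zero α (fun N => (hAm N).compl) (Eventually.of_forall fun x => by
    have : ∀ᶠ n in atTop, a n x < L x + η := eventually_lt_of_limsup_lt (by simp [hL, hη])
      (isBoundedUnder_of ⟨1, fun n => (h01 n x).2⟩)
    obtain ⟨N, hN⟩ := eventually_atTop.1 this
    filter_upwards [eventually_ge_atTop N] with M hM
    simp only [hA, Set.mem_compl_iff, not_not, Set.mem_iInter, Set.mem_ofPred_eq]
    exact fun n hn => hN n (hM.trans hn))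
  obtain ⟨N0, hN0⟩ := (h1.eventually (gt_mem_nhds (half_pos hη))).exists
  set B : ℕ → Set X := fun K => ⋃ n, ⋃ _ : N0 ≤ n ∧ n ≤ K, {x | L x - η < a n x} with hB
  have hBm : ∀ K, MeasurableSet (B K) := fun K => MeasurableSet.iUnion fun n =>
    MeasurableSet.iUnion fun _ => measurableSet_lt (hLm.sub_const η) (ha n)
  have h2 := tendsto_real_zero α (fun K => (hBm K).compl) (Eventually.of_forall fun x => by
    have : ∃ᶠ n in atTop, L x - η < a n x := frequently_lt_of_lt_limsup
      (isCoboundedUnder_le_of_le atTop fun n => (h01 n x).1) (by simp [hL, hη])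
    obtain ⟨n, hn, hn'⟩ := (this.and_eventually (eventually_ge_atTop N0)).exists
    filter_upwards [eventually_ge_atTop n] with M hM
    simp only [hB, Set.mem_compl_iff, not_not, Set.mem_iUnion, Set.mem_ofPred_eq]
    exact ⟨n, ⟨hn', hM⟩, hn⟩)
  obtain ⟨K, hK⟩ := (h2.eventually (gt_mem_nhds (half_pos hη))).exists
  refine ⟨A N0 ∩ B K, K, (hAm _).inter (hBm _), ?_, ?_⟩
  · rw [Set.compl_inter]
    linarith [measureReal_union_le (μ := α) (A N0)ᶜ (B K)ᶜ]
  · rintro x ⟨hxA, hxB⟩ x' ⟨hxA', hxB'⟩ c hc
    simp only [hA, hB, Set.mem_iInter, Set.mem_iUnion, Set.mem_ofPred_eq] at hxA hxB hxA' hxB'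
    obtain ⟨n, ⟨hn1, hn2⟩, hn⟩ := hxB
    obtain ⟨m, ⟨hm1, hm2⟩, hm⟩ := hxB'
    have e1 := abs_le.1 (hc n hn2)
    have e2 := abs_le.1 (hc m hm2)
    have e3 := hxA m hm1
    have e4 := hxA' n hn1
    change |L x - L x'| ≤ _
    rw [abs_le]
    constructor <;> linarith

variable {I : Type*}

abbrev Om (I : Type*) := (I → ℝ) × (ℕ → unitInterval)

abbrev PP (I : Type*) : Measure (Om I) :=
  (lapI I).prod (Measure.infinitePi fun _ : ℕ => (volume : Measure unitInterval))

def upd (k : ℕ) (q : Om I × unitInterval) : Om I := (q.1.1, Function.update q.1.2 k q.2)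

lemma upd_mp (k : ℕ) : MeasurePreserving (upd (I := I) k) ((PP I).prod volume) (PP I) :=
  ((MeasurePreserving.id (lapI I)).prod (resample volume k)).comp
    (measurePreserving_prodAssoc _ _ _)

lemma law_pair {β : Type*} [MeasurableSpace β] (k : ℕ) {F : Om I → β} (hF : Measurable F)
    (hinv : ∀ w v, F (upd k (w, v)) = F w) :
    (PP I).map (fun w => (F w, w.2 k)) = ((PP I).map F).prod volume := by
  have hm : Measurable fun w : Om I => (F w, w.2 k) := by fun_prop
  conv_lhs => rw [← (upd_mp (I := I) k).map_eq]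
  rw [Measure.map_map hm (upd_mp k).measurable]
  conv_rhs => rw [← Measure.map_id (μ := (volume : Measure unitInterval))]
  rw [Measure.map_prod_map _ _ hF measurable_id]
  congr 1
  funext ⟨w, v⟩
  simp only [Function.comp_apply, hinv, Prod.map_apply, id]
  simp [upd]

def chain (R : ℝ → (I → ℝ) → unitInterval → (I → Bool)) (ε : ℝ) (w : Om I) : ℕ → I → ℝ
  | 0 => w.1
  | l + 1 => fun i => chain R ε w l i + ε * bit (R (l * ε) (chain R ε w l) (w.2 l) i)

variable {R : ℝ → (I → ℝ) → unitInterval → (I → Bool)}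

lemma measurable_chain (hR : ∀ t, Measurable (Function.uncurry (R t))) (ε : ℝ) (l : ℕ) :
    Measurable fun w => chain R ε w l := by
  induction l with
  | zero => exact measurable_fst
  | succ l ih =>
    refine measurable_pi_lambda _ fun i => ?_
    simp only [chain]
    refine ((measurable_pi_apply i).comp ih).add (Measurable.const_mul ?_ _)
    exact measurable_bit.comp ((measurable_pi_apply i).comp ((hR _).comp
      (ih.prodMk ((measurable_pi_apply l).comp measurable_snd))))

lemma chain_upd (ε : ℝ) (k : ℕ) (w : Om I) (v : unitInterval) {l : ℕ} (hl : l ≤ k) :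
    chain R ε (upd k (w, v)) l = chain R ε w l := by
  induction l with
  | zero => rfl
  | succ l ih =>
    funext i
    simp only [chain, ih (by omega)]
    simp [upd, Function.update_of_ne (show l ≠ k by omega)]

lemma chain_add (ε : ℝ) (w : Om I) (a r : ℕ) (i : I) :
    chain R ε w (a + r) i = chain R ε w a i + ε * ∑ l ∈ Finset.range r,
      bit (R ((a + l : ℕ) * ε) (chain R ε w (a + l)) (w.2 (a + l)) i) := by
  induction r with
  | zero => simp
  | succ r ih =>
    rw [← add_assoc, Finset.sum_range_succ, mul_add, ← add_assoc, ← ih]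
    rfl

lemma chain_incr {ε : ℝ} (hε : 0 ≤ ε) (w : Om I) (a r : ℕ) (i : I) :
    0 ≤ chain R ε w (a + r) i - chain R ε w a i ∧
      chain R ε w (a + r) i - chain R ε w a i ≤ r * ε := by
  rw [chain_add, add_sub_cancel_left]
  constructor
  · exact mul_nonneg hε (Finset.sum_nonneg fun _ _ => bit_nonneg _)
  · rw [mul_comm]
    refine mul_le_mul_of_nonneg_right ?_ hε
    refine (Finset.sum_le_sum fun _ _ => bit_le_one _).trans ?_
    simp

variable {ν : Measure (I → Bool)} [IsProbabilityMeasure ν]

lemma muT_zero : muT ν 0 = lapI I := by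
  have : Xt (I := I) 0 = Prod.snd := by funext w; funext i; simp [Xt]
  rw [muT, this]
  exact Measure.snd_prod

lemma law_chain (hR : ∀ t, Measurable (Function.uncurry (R t)))
    (hlaw : ∀ t, ((muT ν t).prod volume).map (fun q => (q.1, R t q.1 q.2)) =
        (P0 ν).map (fun w => (Xt t w, w.1))) (ε : ℝ) (l : ℕ) :
    (PP I).map (fun w => chain R ε w l) = muT ν (l * ε) := by
  induction l with
  | zero =>
    simp only [Nat.cast_zero, zero_mul, muT_zero]
    exact Measure.fst_prod
  | succ l ih =>
    set step : (I → ℝ) × (I → Bool) → (I → ℝ) := fun q i => q.1 i + ε * bit (q.2 i) with hstep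
    have hsm : Measurable step := by rw [hstep]; fun_prop
    have hq : Measurable (fun q : (I → ℝ) × unitInterval => (q.1, R (l * ε) q.1 q.2)) :=
      measurable_fst.prodMk (hR _)
    have hc := measurable_chain hR ε l
    have : (fun w => chain R ε w (l + 1)) =
        step ∘ (fun q : (I → ℝ) × unitInterval => (q.1, R (l * ε) q.1 q.2)) ∘
          (fun w : Om I => (chain R ε w l, w.2 l)) := rfl
    have hp : Measurable fun w : Om I => (chain R ε w l, w.2 l) := by fun_prop
    rw [this, ← Measure.map_map hsm (hq.comp hp), ← Measure.map_map hq hp,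
      law_pair l hc (fun w v => chain_upd ε l w v le_rfl), ih, hlaw,
      Measure.map_map hsm (by fun_prop), muT]
    congr 1
    funext w; funext i
    simp only [hstep, Function.comp_apply, Xt]
    push_cast; ring

variable [DecidableEq I] [Countable I] {Λ : I → ℕ → Finset I}

lemma measurable_drift' (p : Finset I → ℝ) (Λ : I → ℕ → Finset I) (i : I) (t : ℝ) :
    Measurable fun x : I → ℝ => drift p Λ i (fun j => hf t (x j)) :=
  measurable_drift (Θ := I → ℝ) (p := fun _ => p) (fun _ => measurable_const)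
    (Λ := fun _ => Λ) (fun _ _ _ => MeasurableSet.const _) i
    (fun j => by unfold hf; fun_prop)

/-- martingale increments -/
def xi (ν : Measure (I → Bool)) (Λ : I → ℕ → Finset I)
    (R : ℝ → (I → ℝ) → unitInterval → (I → Bool)) (ε : ℝ) (i : I) (l : ℕ) (w : Om I) : ℝ :=
  bit (R (l * ε) (chain R ε w l) (w.2 l) i) -
    drift (pOf ν) Λ i (fun j => hf (l * ε) (chain R ε w l j))

omit [Countable I] in
lemma abs_xi_le (ε : ℝ) (i : I) (l : ℕ) (w : Om I) : |xi ν Λ R ε i l w| ≤ 1 := by
  unfold xi
  have h1 := drift_nonneg (Λ := Λ) (mean_mem ν) i (fun j => hf (l * ε) (chain R ε w l j))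
  have h2 := drift_le_one (Λ := Λ) (mean_mem ν) i (fun j => hf (l * ε) (chain R ε w l j))
  have h3 := bit_nonneg (R (l * ε) (chain R ε w l) (w.2 l) i)
  have h4 := bit_le_one (R (l * ε) (chain R ε w l) (w.2 l) i)
  rw [abs_le]; constructor <;> linarith

omit [IsProbabilityMeasure ν] in
lemma measurable_xi (hR : ∀ t, Measurable (Function.uncurry (R t))) (ε : ℝ) (i : I) (l : ℕ) :
    Measurable (xi ν Λ R ε i l) := by
  have hc := measurable_chain hR ε l
  refine Measurable.sub ?_ ((measurable_drift' _ Λ i _).comp hc)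
  exact measurable_bit.comp ((measurable_pi_apply i).comp ((hR _).comp
      (hc.prodMk ((measurable_pi_apply l).comp measurable_snd))))

omit [IsProbabilityMeasure ν] [Countable I] in
lemma xi_upd (ε : ℝ) (i : I) (k : ℕ) (w : Om I) (v : unitInterval) {l : ℕ} (hl : l < k) :
    xi ν Λ R ε i l (upd k (w, v)) = xi ν Λ R ε i l w := by
  simp only [xi, chain_upd ε k w v hl.le]
  simp [upd, Function.update_of_ne hl.ne]

lemma xi_orth (hR : ∀ t, Measurable (Function.uncurry (R t)))
    (hlaw : ∀ t, ((muT ν t).prod volume).map (fun q => (q.1, R t q.1 q.2)) =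
        (P0 ν).map (fun w => (Xt t w, w.1)))
    (hdr : ∀ t i, ∀ᵐ x ∂muT ν t, ∫ u, bit (R t x u i) = drift (pOf ν) Λ i (fun j => hf t (x j)))
    (ε : ℝ) (i : I) (k : ℕ) {S : Om I → ℝ} (hS : Measurable S) {M : ℝ} (hM : ∀ w, |S w| ≤ M)
    (hinv : ∀ w v, S (upd k (w, v)) = S w) : ∫ w, S w * xi ν Λ R ε i k w ∂PP I = 0 := by
  have hm : Measurable fun w => S w * xi ν Λ R ε i k w := hS.mul (measurable_xi hR ε i k)
  have hb : ∀ w, ‖S w * xi ν Λ R ε i k w‖ ≤ M := fun w => by
    rw [Real.norm_eq_abs, abs_mul]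
    calc _ ≤ M * 1 := mul_le_mul (hM w) (abs_xi_le ε i k w) (abs_nonneg _)
          ((abs_nonneg _).trans (hM w))
      _ = M := mul_one M
  rw [← (upd_mp (I := I) k).map_eq, integral_map (upd_mp k).measurable.aemeasurable
    hm.aestronglyMeasurable, integral_prod]
  · have hae : ∀ᵐ w ∂PP I, ∫ u, bit (R (k * ε) (chain R ε w k) u i) =
        drift (pOf ν) Λ i (fun j => hf (k * ε) (chain R ε w k j)) := by
      have := hdr (k * ε) i
      rw [← law_chain hR hlaw ε k] at this
      exact ae_of_ae_map (measurable_chain hR ε k).aemeasurable this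
    refine integral_eq_zero_of_ae ?_
    filter_upwards [hae] with w hw
    simp only [hinv, xi, chain_upd ε k w _ le_rfl, Pi.zero_apply]
    have : ∀ v, (upd k (w, v)).2 k = v := fun v => by simp [upd]
    simp only [this]
    rw [integral_const_mul, integral_sub _ (integrable_const _), hw]
    · simp
    · exact Integrable.of_bound (measurable_bit.comp ((measurable_pi_apply i).comp
        (hR _).of_uncurry_left)).aestronglyMeasurable 1 (Eventually.of_forall fun u => by
        rw [Real.norm_eq_abs, abs_of_nonneg (bit_nonneg _)]; exact bit_le_one _)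
  · exact Integrable.of_bound (hm.comp (upd_mp k).measurable).aestronglyMeasurable M
      (Eventually.of_forall fun q => hb _)

lemma noise_sq (hR : ∀ t, Measurable (Function.uncurry (R t)))
    (hlaw : ∀ t, ((muT ν t).prod volume).map (fun q => (q.1, R t q.1 q.2)) =
        (P0 ν).map (fun w => (Xt t w, w.1)))
    (hdr : ∀ t i, ∀ᵐ x ∂muT ν t, ∫ u, bit (R t x u i) = drift (pOf ν) Λ i (fun j => hf t (x j)))
    (ε : ℝ) (i : I) (a r : ℕ) :
    ∫ w, (∑ l ∈ Finset.range r, xi ν Λ R ε i (a + l) w) ^ 2 ∂PP I ≤ r := by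
  induction r with
  | zero => simp
  | succ r ih =>
    set S : Om I → ℝ := fun w => ∑ l ∈ Finset.range r, xi ν Λ R ε i (a + l) w with hS
    have hSm : Measurable S := Finset.measurable_sum _ fun l _ => measurable_xi hR ε i _
    have hSb : ∀ w, |S w| ≤ r := fun w => by
      refine (Finset.abs_sum_le_sum_abs _ _).trans ?_
      refine (Finset.sum_le_sum fun l _ => abs_xi_le ε i _ w).trans ?_
      simp
    have horth := xi_orth hR hlaw hdr ε i (a + r) hSm hSb fun w v =>
      Finset.sum_congr rfl fun l hl => xi_upd ε i _ w v (by simpa using hl)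
    have hxm := measurable_xi (ν := ν) (Λ := Λ) hR ε i (a + r)
    have i1 : Integrable (fun w => S w ^ 2) (PP I) :=
      Integrable.of_bound (hSm.pow_const 2).aestronglyMeasurable ((r : ℝ) ^ 2)
        (Eventually.of_forall fun w => by
          rw [Real.norm_eq_abs, abs_pow]; gcongr; exact hSb w)
    have i2 : Integrable (fun w => S w * xi ν Λ R ε i (a + r) w) (PP I) :=
      Integrable.of_bound (hSm.mul hxm).aestronglyMeasurable (r * 1)
        (Eventually.of_forall fun w => by
          rw [Real.norm_eq_abs, abs_mul]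
          exact mul_le_mul (hSb w) (abs_xi_le ε i _ w) (abs_nonneg _) (by positivity))
    calc _ ≤ ∫ w, (S w ^ 2 + 2 * (S w * xi ν Λ R ε i (a + r) w) + 1) ∂PP I := by
          refine integral_mono_of_nonneg (Eventually.of_forall fun w => sq_nonneg _)
            ((i1.add (i2.const_mul 2)).add (integrable_const _))
            (Eventually.of_forall fun w => ?_)
          simp only [Finset.sum_range_succ]
          have := abs_xi_le (ν := ν) (Λ := Λ) (R := R) ε i (a + r) w
          have h2 : xi ν Λ R ε i (a + r) w ^ 2 ≤ 1 := by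
            rw [← sq_abs]; exact pow_le_one₀ (abs_nonneg _) this
          change (S w + _) ^ 2 ≤ _
          nlinarith
      _ = ∫ w, S w ^ 2 ∂PP I + 1 := by
          have i3 : Integrable (fun w => S w ^ 2 + 2 * (S w * xi ν Λ R ε i (a + r) w)) (PP I) :=
            i1.add (i2.const_mul 2)
          rw [integral_add i3 (integrable_const _),
            integral_add i1 (i2.const_mul 2), integral_const_mul, horth]
          simp
      _ ≤ _ := by push_cast; linarith

lemma noise_prob (hR : ∀ t, Measurable (Function.uncurry (R t)))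
    (hlaw : ∀ t, ((muT ν t).prod volume).map (fun q => (q.1, R t q.1 q.2)) =
        (P0 ν).map (fun w => (Xt t w, w.1)))
    (hdr : ∀ t i, ∀ᵐ x ∂muT ν t, ∫ u, bit (R t x u i) = drift (pOf ν) Λ i (fun j => hf t (x j)))
    {ε : ℝ} (hε : 0 < ε) (i : I) (a r : ℕ) {η : ℝ} (hη : 0 < η) :
    (PP I).real {w | η < ε * |∑ l ∈ Finset.range r, xi ν Λ R ε i (a + l) w|} ≤
      ε * (r * ε / η ^ 2) := by
  set S : Om I → ℝ := fun w => ∑ l ∈ Finset.range r, xi ν Λ R ε i (a + l) w with hS
  have hSm : Measurable S := Finset.measurable_sum _ fun l _ => measurable_xi hR ε i _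
  have hSb : ∀ w, |S w| ≤ r := fun w => by
    refine (Finset.abs_sum_le_sum_abs _ _).trans ?_
    refine (Finset.sum_le_sum fun l _ => abs_xi_le ε i _ w).trans ?_
    simp
  have i1 : Integrable (fun w => S w ^ 2) (PP I) :=
    Integrable.of_bound (hSm.pow_const 2).aestronglyMeasurable ((r : ℝ) ^ 2)
      (Eventually.of_forall fun w => by
        rw [Real.norm_eq_abs, abs_pow]; gcongr; exact hSb w)
  have h1 := mul_meas_ge_le_integral_of_nonneg (Eventually.of_forall fun w => sq_nonneg (S w)) i1
    ((η / ε) ^ 2)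
  have h2 := noise_sq hR hlaw hdr ε i a r
  have h3 : (PP I).real {w | η < ε * |S w|} ≤ (PP I).real {w | (η / ε) ^ 2 ≤ S w ^ 2} := by
    refine measureReal_mono fun w hw => ?_
    simp only [Set.mem_ofPred_eq] at hw ⊢
    rw [← sq_abs (S w)]
    gcongr
    rw [div_le_iff₀ hε]; linarith
  refine h3.trans ?_
  have h4 : (η / ε) ^ 2 * (PP I).real {w | (η / ε) ^ 2 ≤ S w ^ 2} ≤ r := h1.trans h2
  have h5 : 0 < (η / ε) ^ 2 := by positivity
  rw [mul_comm, ← le_div_iff₀ h5] at h4
  refine h4.trans (le_of_eq ?_)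
  field_simp

end

end Crest.Agent.H0254
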