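import Crest.Agent.H0254.Fusf

set_option autoImplicit false

namespace Crest.Agent.H0254

open Filter Topology MeasureTheory Crest.ProbabilityR.SpanningTrees

noncomputable section

variable {V : Type*}

def ball (G : SimpleGraph V) (e : Sym2 V) : ℕ → Set V
  | 0 => {v | v ∈ e}
  | n + 1 => ball G e n ∪ {w | ∃ v, v ∈ ball G e n ∧ G.Adj v w}

def lamSet (G : SimpleGraph V) (e : Sym2 V) (n : ℕ) : Set (Sym2 V) :=
  {f | f ∈ G.edgeSet ∧ ∀ v, v ∈ f → v ∈ ball G e n}

open Classical in
def lam (G : SimpleGraph V) (e : Sym2 V) (n : ℕ) : Finset (Sym2 V) :=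
  if h : (lamSet G e n).Finite then h.toFinset else ∅

lemma mem_lam {G : SimpleGraph V} {e f : Sym2 V} {n : ℕ} :
    f ∈ lam G e n ↔ (lamSet G e n).Finite ∧ f ∈ lamSet G e n := by
  unfold lam
  split_ifs with h <;> simp [h]

lemma ball_mono (G : SimpleGraph V) (e : Sym2 V) : Monotone (ball G e) :=
  monotone_nat_of_le_succ fun _ => Set.subset_union_left

lemma ball_finite {G : SimpleGraph V} (hG : ∀ v, (G.neighborSet v).Finite) (e : Sym2 V) (n : ℕ) :
    (ball G e n).Finite := by
  induction n with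
  | zero =>
    induction e using Sym2.ind with
    | h a b => exact (Set.toFinite {a, b}).subset fun v hv => by simpa [ball] using hv
  | succ n ih =>
    refine ih.union ((ih.biUnion fun v _ => hG v).subset ?_)
    rintro w ⟨v, hv, h⟩
    exact Set.mem_biUnion hv h

lemma lamSet_finite {G : SimpleGraph V} (hG : ∀ v, (G.neighborSet v).Finite) (e : Sym2 V) (n : ℕ) :
    (lamSet G e n).Finite := by
  refine (ball_finite hG e n).toFinset.sym2.finite_toSet.subset fun f hf => ?_
  exact Finset.mem_coe.2 (Finset.mem_sym2_iff.2 fun v hv => (Set.Finite.mem_toFinset _).2 (hf.2 v hv))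

lemma exists_mem_ball {G : SimpleGraph V} (hG : G.Connected) (e : Sym2 V) (v : V) :
    ∃ n, v ∈ ball G e n := by
  obtain ⟨w⟩ := hG.preconnected v e.out.1
  have : ∀ (x y : V) (_ : G.Walk x y), y ∈ e → ∃ n, x ∈ ball G e n := by
    intro x y w
    induction w with
    | nil => exact fun h => ⟨0, h⟩
    | cons hxy _ ih =>
      intro h
      obtain ⟨n, hn⟩ := ih h
      exact ⟨n + 1, Or.inr ⟨_, hn, hxy.symm⟩⟩
  exact this _ _ w (Sym2.out_fst_mem e)

lemma lam_mono {G : SimpleGraph V} (hG : ∀ v, (G.neighborSet v).Finite) (e : Sym2 V) :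
    Monotone (lam G e) := fun _ n hmn _ hf =>
  mem_lam.2 ⟨lamSet_finite hG e n, (mem_lam.1 hf).2.1, fun v hv =>
    ball_mono G e hmn ((mem_lam.1 hf).2.2 v hv)⟩

lemma lam_exhaust {G : SimpleGraph V} (hc : G.Connected) (hG : ∀ v, (G.neighborSet v).Finite)
    (e : Sym2 V) {f : Sym2 V} (hf : f ∈ G.edgeSet) : ∃ n, f ∈ lam G e n := by
  induction f using Sym2.ind with
  | h a b =>
    obtain ⟨n, hn⟩ := exists_mem_ball hc e a
    obtain ⟨m, hm⟩ := exists_mem_ball hc e b
    refine ⟨max n m, mem_lam.2 ⟨lamSet_finite hG e _, hf, fun v hv => ?_⟩⟩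
    rcases Sym2.mem_iff.1 hv with rfl | rfl
    · exact ball_mono G e (le_max_left _ _) hn
    · exact ball_mono G e (le_max_right _ _) hm

section equivariance
variable (σ : Equiv.Perm V)

lemma mem_ball_comap (G : SimpleGraph V) (e : Sym2 V) (n : ℕ) (v : V) :
    v ∈ ball (G.comap σ) e n ↔ σ v ∈ ball G (e.map σ) n := by
  induction n generalizing v with
  | zero => simp [ball, Sym2.mem_map]
  | succ n ih =>
    simp only [ball, Set.mem_union, Set.mem_ofPred_eq, ih, SimpleGraph.comap_adj]
    refine or_congr Iff.rfl ⟨?_, ?_⟩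
    · rintro ⟨w, h⟩; exact ⟨σ w, h⟩
    · rintro ⟨w, h⟩; exact ⟨σ.symm w, by simpa using h⟩

lemma mem_lamSet_comap (G : SimpleGraph V) (e f : Sym2 V) (n : ℕ) :
    f ∈ lamSet (G.comap σ) e n ↔ f.map σ ∈ lamSet G (e.map σ) n := by
  induction f using Sym2.ind with
  | h a b => simp [lamSet, mem_ball_comap]

lemma sym2_surj : Function.Surjective (Sym2.map σ) := by
  intro e
  refine ⟨e.map σ.symm, ?_⟩
  induction e using Sym2.ind with
  | h a b => simp

lemma lam_comap (G : SimpleGraph V) (e : Sym2 V) (n : ℕ) :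
    lam G (σ.toEmbedding.sym2Map e) n = (lam (G.comap σ) e n).map σ.toEmbedding.sym2Map := by
  have himg : lamSet G (e.map σ) n = Sym2.map σ '' lamSet (G.comap σ) e n := by
    ext f
    obtain ⟨f, rfl⟩ := sym2_surj σ f
    rw [(Sym2.map.injective σ.injective).mem_set_image, mem_lamSet_comap]
  ext f
  obtain ⟨f, rfl⟩ := sym2_surj σ f
  change _ ↔ σ.toEmbedding.sym2Map f ∈ _
  rw [Finset.mem_map', mem_lam, mem_lam, mem_lamSet_comap]
  change (lamSet G (e.map σ) n).Finite ∧ _ ↔ _
  rw [himg, Set.finite_image_iff (Sym2.map.injective σ.injective).injOn, ← himg]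
  rfl

lemma edgesIn_comap (G : SimpleGraph V) (S : Finset V) :
    edgesIn G (S.map σ.toEmbedding) = (edgesIn (G.comap σ) S).map σ.toEmbedding.sym2Map := by
  ext f
  obtain ⟨f, rfl⟩ := sym2_surj σ f
  change _ ↔ σ.toEmbedding.sym2Map f ∈ _
  rw [Finset.mem_map']
  induction f using Sym2.ind with
  | h a b => simp [mem_edgesIn]

lemma conn_map (S : Finset V) (A : Finset (Sym2 V)) :
    Conn (S.map σ.toEmbedding) (A.map σ.toEmbedding.sym2Map) ↔ Conn S A := by
  constructor
  · intro h P hP a ha b hb
    have := h (fun w => P (σ.symm w)) (fun a b hab => hP _ _ ?_) (σ a) (Finset.mem_map_of_mem _ ha)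
      (σ b) (Finset.mem_map_of_mem _ hb)
    · simpa using this
    · rw [← Finset.mem_map' σ.toEmbedding.sym2Map]
      simpa using hab
  · intro h P hP a ha b hb
    obtain ⟨a', ha', rfl⟩ := Finset.mem_map.1 ha
    obtain ⟨b', hb', rfl⟩ := Finset.mem_map.1 hb
    exact h (fun w => P (σ w)) (fun a b hab => hP _ _ (Finset.mem_map_of_mem _ hab)) a' ha' b' hb'

lemma trees_map (S : Finset V) (E : Finset (Sym2 V)) :
    trees (S.map σ.toEmbedding) (E.map σ.toEmbedding.sym2Map) =
      (trees S E).map (Finset.mapEmbedding σ.toEmbedding.sym2Map).toEmbedding := by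
  ext T
  simp only [Finset.mem_map, mem_trees, Finset.card_map, RelEmbedding.coe_toEmbedding,
    Finset.mapEmbedding_apply]
  constructor
  · rintro ⟨h1, h2, h3⟩
    obtain ⟨T, hT, rfl⟩ := Finset.subset_map_iff.1 h1
    exact ⟨T, ⟨hT, (conn_map σ S T).1 h2, by simpa using h3⟩, rfl⟩
  · rintro ⟨T, ⟨h1, h2, h3⟩, rfl⟩
    exact ⟨Finset.map_subset_map.2 h1, (conn_map σ S T).2 h2, by simpa using h3⟩

variable [DecidableEq V]

lemma term_map (S : Finset V) (E F : Finset (Sym2 V)) :
    term (S.map σ.toEmbedding) (E.map σ.toEmbedding.sym2Map) (F.map σ.toEmbedding.sym2Map) =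
      term S E F := by
  have : ratio (S.map σ.toEmbedding) (E.map σ.toEmbedding.sym2Map) (F.map σ.toEmbedding.sym2Map) =
      ratio S E F := by
    unfold ratio
    simp only [trees_map, Finset.filter_map, Finset.card_map]
    congr 3
    refine Finset.filter_congr fun T _ => ?_
    simp [Finset.map_subset_map]
  unfold term
  rw [this]
  by_cases h : S.Nonempty ∧ Conn S E ∧ F ⊆ E
  · rw [if_pos h, if_pos (by rwa [conn_map, Finset.map_nonempty, Finset.map_subset_map])]
  · rw [if_neg h, if_neg (by rwa [conn_map, Finset.map_nonempty, Finset.map_subset_map])]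

lemma pG_comap (G : SimpleGraph V) (F : Finset (Sym2 V)) :
    pG (G.comap σ) F = pG G (F.map σ.toEmbedding.sym2Map) := by
  unfold pG
  rw [← σ.finsetCongr.surjective.iInf_comp
    (fun S => term S (edgesIn G S) (F.map σ.toEmbedding.sym2Map))]
  refine iInf_congr fun S => ?_
  rw [Equiv.finsetCongr_apply, edgesIn_comap, term_map]

end equivariance

section meas
variable [Countable V] {Θ : Type*} [MeasurableSpace Θ] {G : Θ → SimpleGraph V}
    (hG : ∀ u v, Measurable fun θ => (G θ).Adj u v)
include hG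

omit [Countable V] in
lemma measurable_mem_edgeSet (f : Sym2 V) : Measurable fun θ => f ∈ (G θ).edgeSet := by
  induction f using Sym2.ind with
  | h a b => exact hG a b

lemma measurable_ball (e : Sym2 V) (n : ℕ) (v : V) : Measurable fun θ => v ∈ ball (G θ) e n := by
  induction n generalizing v with
  | zero => exact measurable_const
  | succ n ih => exact (ih v).or (Measurable.exists fun w => (ih w).and (hG w v))

lemma measurable_lam (e : Sym2 V) (n : ℕ) (f : Sym2 V) :
    MeasurableSet {θ | f ∈ lam (G θ) e n} := by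
  have h1 : ∀ f, Measurable fun θ => f ∈ lamSet (G θ) e n := fun f =>
    (measurable_mem_edgeSet hG f).and
      (Measurable.forall fun v => measurable_const.imp (measurable_ball hG e n v))
  simp only [mem_lam]
  refine MeasurableSet.inter ?_ (measurableSet_setOfPred.2 (h1 f))
  exact measurable_set_iff.2 h1 MeasurableSet.setOfPred_finite

lemma measurable_pG [DecidableEq V] (F : Finset (Sym2 V)) : Measurable fun θ => pG (G θ) F := by
  unfold pG
  refine Measurable.iInf fun S => ?_
  refine measurable_of_finset (L := fun θ => edgesIn (G θ) S) (f := fun E _ => term S E F)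
    (fun j => ?_) fun _ => measurable_const
  simp only [mem_edgesIn]
  exact measurableSet_setOfPred.2 (measurable_const.and (measurable_mem_edgeSet hG j))

end meas

end

end Crest.Agent.H0254
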