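import Crest.Agent.H0254.Posterior

set_option autoImplicit false

namespace Crest.Agent.H0254

open Filter MeasureTheory Topology Complex

noncomputable section

variable {J : Type*}

/-- complex generating polynomial written with inclusion probabilities. -/
def Zc (p : Finset J → ℝ) (Λ : Finset J) (z : J → ℂ) : ℂ :=
  ∑ F ∈ Λ.powerset, (∏ j ∈ F, (z j - 1)) * (p F : ℂ)

def StabP (p : Finset J → ℝ) (Λ : Finset J) : Prop :=
  ∀ z : J → ℂ, (∀ j ∈ Λ, 0 < (z j).im) → Zc p Λ z ≠ 0

lemma Zc_congr (p : Finset J → ℝ) (s : Finset J) {z z' : J → ℂ} (hh : ∀ j ∈ s, z j = z' j) :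
    Zc p s z = Zc p s z' := by
  unfold Zc
  refine Finset.sum_congr rfl fun F hF => ?_
  congr 1
  refine Finset.prod_congr rfl fun j hj => ?_
  rw [hh j (Finset.mem_powerset.1 hF hj)]

lemma Zc_exp (p : Finset J → ℝ) (s : Finset J) (h : J → ℝ) :
    Zc p s (fun j => (Real.exp (h j) : ℂ)) = (Zp p s h : ℂ) := by
  simp [Zc, Zp]

lemma Zc_conj (p : Finset J → ℝ) (s : Finset J) (z : J → ℂ) :
    Zc p s (fun j => (starRingEnd ℂ) (z j)) = (starRingEnd ℂ) (Zc p s z) := by
  simp [Zc, map_sum, map_prod]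

lemma StabP.sign {p : Finset J → ℝ} {Λ : Finset J} (h : StabP p Λ) {σ : ℝ} (hσ : σ ≠ 0)
    (z : J → ℂ) (hz : ∀ j ∈ Λ, 0 < σ * (z j).im) : Zc p Λ z ≠ 0 := by
  rcases lt_or_gt_of_ne hσ with h1 | h1
  · have := h (fun j => (starRingEnd ℂ) (z j)) fun j hj => by
      have := hz j hj
      simp only [conj_im]
      nlinarith
    rw [Zc_conj] at this
    simpa using this
  · exact h z fun j hj => by
      have := hz j hj
      exact (pos_iff_pos_of_mul_pos this).1 h1

lemma differentiable_Zc (p : Finset J → ℝ) (s : Finset J) {z : ℂ → J → ℂ}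
    (hz : ∀ j, Differentiable ℂ fun w => z w j) : Differentiable ℂ fun w => Zc p s (z w) := by
  unfold Zc
  refine Differentiable.fun_sum fun F _ => Differentiable.mul_const ?_ _
  exact Differentiable.fun_finsetProd fun j _ => (hz j).sub_const 1

variable [DecidableEq J]

lemma Zc_update (p : Finset J → ℝ) {Λ : Finset J} {i : J} (hi : i ∈ Λ) (z : J → ℂ) (u : ℂ) :
    z i * Zc p Λ (Function.update z i u) =
      z i * Zc p Λ z + (u - z i) * Zc (fun F => p (insert i F)) Λ z := by
  have hne : i ∉ Λ.erase i := Finset.notMem_erase i Λ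
  unfold Zc
  rw [← Finset.insert_erase hi]
  simp only [Finset.sum_powerset_insert hne, Finset.insert_idem, ← Finset.sum_add_distrib,
    Finset.mul_sum]
  refine Finset.sum_congr rfl fun F hF => ?_
  have hiF : i ∉ F := fun h => hne (Finset.mem_powerset.1 hF h)
  have : ∏ j ∈ F, (Function.update z i u j - 1) = ∏ j ∈ F, (z j - 1) :=
    Finset.prod_congr rfl fun j hj => by rw [Function.update_of_ne (by rintro rfl; exact hiF hj)]
  simp only [Finset.prod_insert hiF, this, Function.update_self]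
  ring

omit [DecidableEq J] in
lemma Zp_enlarge (p : Finset J → ℝ) {s Λ : Finset J} (hs : s ⊆ Λ) {h g : J → ℝ}
    (h1 : ∀ j ∈ s, g j = h j) (h2 : ∀ j ∈ Λ, j ∉ s → g j = 0) : Zp p Λ g = Zp p s h := by
  rw [← Zp_congr p s h1]
  unfold Zp
  symm
  refine Finset.sum_subset (Finset.powerset_mono.2 hs) fun F hF hF' => ?_
  rw [Finset.mem_powerset] at hF hF'
  obtain ⟨j, hj, hj'⟩ := Finset.not_subset.1 hF'
  rw [Finset.prod_eq_zero hj (by simp [h2 j (hF hj) hj']), zero_mul]

lemma abs_sub_le_two_log {a b : ℝ} (ha : a ∈ Set.Icc (0 : ℝ) 1) (hb : b ∈ Set.Icc (0 : ℝ) 1) :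
    |a - b| ≤ 2 * |Real.log (a + 1) - Real.log (b + 1)| := by
  wlog hab : b ≤ a generalizing a b
  · rw [abs_sub_comm, abs_sub_comm (Real.log _)]
    exact this hb ha (le_of_not_ge hab)
  have ha1 : 0 < a + 1 := by linarith [ha.1]
  have hb1 : 0 < b + 1 := by linarith [hb.1]
  have h1 := Real.log_le_sub_one_of_pos (div_pos hb1 ha1)
  rw [Real.log_div hb1.ne' ha1.ne'] at h1
  have h2 : (b + 1) / (a + 1) - 1 = -((a - b) / (a + 1)) := by field_simp; ring
  have h3 : (a - b) / 2 ≤ (a - b) / (a + 1) :=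
    div_le_div_of_nonneg_left (by linarith) ha1 (by linarith [ha.2])
  rw [abs_of_nonneg (by linarith)]
  have := le_abs_self (Real.log (a + 1) - Real.log (b + 1))
  linarith

variable (ν : Measure (J → Bool)) [IsProbabilityMeasure ν]

lemma local_lip {Λ : Finset J} (hst : StabP (pOf ν) Λ) {i : J} (hi : i ∈ Λ) (h g : J → ℝ)
    {t : ℝ} (ht0 : 0 < t) (ht : t ≤ 1 / 2) (h1 : ∀ j ∈ Λ, h j < g j)
    (h2 : ∀ j ∈ Λ, Real.exp (g j - h j) ≤ 1 + t) :
    |mean (pOf ν) Λ i g - mean (pOf ν) Λ i h| ≤ 8 * Real.pi * t := by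
  set v : J → ℝ := fun j => (Real.exp (g j - h j) - 1) / t with hv
  have hv0 : ∀ j ∈ Λ, 0 < v j := fun j hj =>
    div_pos (sub_pos.2 (Real.one_lt_exp_iff.2 (sub_pos.2 (h1 j hj)))) ht0
  have hv1 : ∀ j ∈ Λ, v j ≤ 1 := fun j hj => by
    rw [hv]; simp only; rw [div_le_one ht0]; linarith [h2 j hj]
  set z : ℂ → J → ℂ := fun w j => (Real.exp (h j) : ℂ) * (1 + v j * w) with hz
  set N : (J → ℂ) → ℂ := Zc (fun F => pOf ν (insert i F)) Λ with hN
  set q : ℂ → ℂ := fun w => N (z w) / Zc (pOf ν) Λ (z w) with hq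
  have hreal : ∀ (s : ℝ) (k : J → ℝ), (∀ j ∈ Λ, Real.exp (k j) = Real.exp (h j) * (1 + v j * s)) →
      Zc (pOf ν) Λ (z s) ≠ 0 ∧ q s = (mean (pOf ν) Λ i k : ℂ) := by
    intro s k hk
    have e : ∀ j ∈ Λ, z s j = (Real.exp (k j) : ℂ) := fun j hj => by
      rw [hk j hj, hz]; push_cast; rfl
    simp only [hq, hN]
    rw [Zc_congr _ _ e, Zc_congr _ _ e, Zc_exp, Zc_exp, mean]
    exact ⟨by exact_mod_cast (Zp_pos ν Λ k).ne', by push_cast; rfl⟩
  have hgood : ∀ w ∈ Metric.ball (0 : ℂ) 1, Zc (pOf ν) Λ (z w) ≠ 0 ∧ q w + 1 ∈ slitPlane := by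
    intro w hw
    rw [mem_ball_zero_iff] at hw
    by_cases him : w.im = 0
    · have hw' : w = (w.re : ℂ) := Complex.ext (by simp) (by simp [him])
      have hre : |w.re| < 1 := (abs_re_le_norm w).trans_lt hw
      obtain ⟨e1, e2⟩ := hreal w.re (fun j => h j + Real.log (1 + v j * w.re)) fun j hj => by
        rw [Real.exp_add, Real.exp_log]
        have := abs_lt.1 hre
        nlinarith [hv0 j hj, hv1 j hj]
      rw [hw']
      refine ⟨e1, ?_⟩
      rw [e2, mem_slitPlane_iff]
      left
      simp only [add_re, ofReal_re, one_re]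
      linarith [(mean_mem ν Λ i (fun j => h j + Real.log (1 + v j * w.re))).1]
    · have hzim : ∀ j ∈ Λ, 0 < w.im * (z w j).im := fun j hj => by
        have : (z w j).im = Real.exp (h j) * (v j * w.im) := by
          simp only [hz, mul_im, ofReal_re, ofReal_im, add_im, one_im, zero_add, zero_mul,
            add_zero]
        rw [this]
        have := mul_self_pos.2 him
        have := hv0 j hj
        have := Real.exp_pos (h j)
        have e : w.im * (Real.exp (h j) * (v j * w.im)) =
          Real.exp (h j) * (v j * (w.im * w.im)) := by ring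
        rw [e]; positivity
      have hZ := hst.sign him _ hzim
      refine ⟨hZ, ?_⟩
      by_contra hcon
      rw [mem_slitPlane_iff, not_or, not_lt, not_not] at hcon
      obtain ⟨c1, c2⟩ := hcon
      simp only [add_re, one_re, add_im, one_im, add_zero] at c1 c2
      set a : ℝ := -(q w).re with ha
      have ha1 : 1 ≤ a := by linarith
      have hqa : q w = -(a : ℂ) := Complex.ext (by simp [ha]) (by simp [c2])
      have hNa : N (z w) = -(a : ℂ) * Zc (pOf ν) Λ (z w) := by
        rw [← hqa, hq]; simp only; field_simp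
      have hup := Zc_update (pOf ν) hi (z w) (z w i * ((1 + 1 / a : ℝ) : ℂ))
      have hzi : z w i ≠ 0 := by
        intro h0
        have := hzim i hi
        simp [h0] at this
      have ha0 : (a : ℂ) ≠ 0 := by exact_mod_cast (by linarith : a ≠ 0)
      have hzero : Zc (pOf ν) Λ (Function.update (z w) i (z w i * ((1 + 1 / a : ℝ) : ℂ))) = 0 := by
        refine mul_left_cancel₀ hzi ?_
        rw [hup, ← hN, hNa]
        push_cast
        field_simp
        ring
      refine hst.sign him _ (fun j hj => ?_) hzero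
      by_cases hji : j = i
      · subst hji
        simp only [Function.update_self, mul_im, ofReal_re, ofReal_im, mul_zero, zero_add]
        rw [← mul_assoc]
        exact mul_pos (hzim j hj) (by positivity)
      · rw [Function.update_of_ne hji]; exact hzim j hj
  have hzd : ∀ j, Differentiable ℂ fun w => z w j := fun j => by simp only [hz]; fun_prop
  have hqd : DifferentiableOn ℂ q (Metric.ball 0 1) :=
    (differentiable_Zc _ _ hzd).differentiableOn.div (differentiable_Zc _ _ hzd).differentiableOn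
      fun w hw => (hgood w hw).1
  have q0 : q 0 = (mean (pOf ν) Λ i h : ℂ) := (hreal 0 h fun j _ => by simp).2
  have qt : q t = (mean (pOf ν) Λ i g : ℂ) := (hreal t g fun j _ => by
    rw [hv]; simp only
    rw [div_mul_cancel₀ _ ht0.ne', add_sub_cancel, ← Real.exp_add]; congr 1; ring).2
  have m0 := mean_mem ν Λ i h
  have m1 := mean_mem ν Λ i g
  have l0 : Complex.log (q 0 + 1) = (Real.log (mean (pOf ν) Λ i h + 1) : ℂ) := by
    rw [q0, Complex.ofReal_log (by linarith [m0.1])]; push_cast; rfl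
  have l1 : Complex.log (q t + 1) = (Real.log (mean (pOf ν) Λ i g + 1) : ℂ) := by
    rw [qt, Complex.ofReal_log (by linarith [m1.1])]; push_cast; rfl
  have hBC := borelCaratheodory_zero (M := Real.pi) (R := 1) (z := (t : ℂ))
    (f := fun w => -I * (Complex.log (q w + 1) - Complex.log (q 0 + 1))) Real.pi_pos
    (((hqd.add_const 1).clog fun w hw => (hgood w hw).2).sub_const _ |>.const_mul _)
    (fun w _ => by
      rw [l0]
      simp only [Set.mem_ofPred_eq, neg_mul, neg_re, mul_re, I_re, zero_mul, I_im, sub_im,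
        ofReal_im, sub_zero, one_mul, zero_sub, neg_neg, log_im]
      exact arg_le_pi _) one_pos
    (by rw [mem_ball_zero_iff, norm_real, Real.norm_eq_abs, abs_of_pos ht0]; linarith) (by simp)
  rw [l0, l1, norm_mul, norm_neg, norm_I, one_mul, ← ofReal_sub, norm_real, norm_real,
    Real.norm_eq_abs, Real.norm_eq_abs, abs_of_pos ht0] at hBC
  refine (abs_sub_le_two_log m1 m0).trans ?_
  have : 2 * Real.pi * t / (1 - t) ≤ 4 * Real.pi * t := by
    rw [div_le_iff₀ (by linarith)]
    have := mul_pos Real.pi_pos ht0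
    nlinarith
  linarith

theorem lip_of_stab (hst : ∀ s : Finset J, ∃ Λ, s ⊆ Λ ∧ StabP (pOf ν) Λ) :
    LipMean (pOf ν) 300 := by
  intro s i h h' d hd0 hd
  obtain ⟨Λ, hΛ, hst⟩ := hst (insert i s)
  have hi : i ∈ Λ := hΛ (Finset.mem_insert_self _ _)
  have hs : s ⊆ Λ := (Finset.subset_insert _ _).trans hΛ
  rcases eq_or_lt_of_le hd0 with rfl | hd0
  · rw [mean_congr _ s i (h' := h') fun j hj => by
      have := hd j hj
      rw [abs_nonpos_iff] at this; linarith]
    simp
  by_cases hd1 : 1 / 9 < d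
  · have m0 := mean_mem ν s i h
    have m1 := mean_mem ν s i h'
    rw [abs_le]; constructor <;> linarith [m0.1, m0.2, m1.1, m1.2]
  push Not at hd1
  have enl : ∀ k : J → ℝ, mean (pOf ν) s i k =
      mean (pOf ν) Λ i (fun j => if j ∈ s then k j else 0) := by
    intro k
    unfold mean
    rw [Zp_enlarge _ hs (h := k) (fun j hj => by simp [hj]) (fun j _ hj => by simp [hj]),
      Zp_enlarge _ hs (h := k) (fun j hj => by simp [hj]) (fun j _ hj => by simp [hj])]
  rw [enl h, enl h']
  set k : J → ℝ := fun j => if j ∈ s then h j else 0 with hk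
  set k' : J → ℝ := fun j => if j ∈ s then h' j else 0 with hk'
  have hkk : ∀ j, |k j - k' j| ≤ d := fun j => by
    simp only [hk, hk']
    split_ifs with hj
    · exact hd j hj
    · simpa using hd0.le
  have hexp : ∀ x : ℝ, x ≤ 3 * d → Real.exp x ≤ 1 + 9 / 2 * d := by
    intro x hx
    refine (Real.exp_le_exp.2 hx).trans
      ((Real.exp_bound_div_one_sub_of_interval (by linarith) (by linarith)).trans ?_)
    rw [div_le_iff₀ (by linarith)]
    nlinarith
  have b1 := local_lip ν hst hi k (fun j => k j + 2 * d) (t := 9 / 2 * d) (by linarith)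
    (by linarith) (fun j _ => by linarith) (fun j _ => hexp _ (by linarith))
  have b2 := local_lip ν hst hi k' (fun j => k j + 2 * d) (t := 9 / 2 * d) (by linarith)
    (by linarith) (fun j _ => by linarith [(abs_le.1 (hkk j)).1])
    (fun j _ => hexp _ (by linarith [(abs_le.1 (hkk j)).2]))
  have b3 := abs_le.1 b1
  have b4 := abs_le.1 b2
  have := mul_le_mul_of_nonneg_right Real.pi_le_four hd0.le
  rw [abs_le]; constructor <;> nlinarith

end

end Crest.Agent.H0254
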