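import Crest.Agent.H0254.Ust
import Crest.Agent.H0254.Stable

set_option autoImplicit false

namespace Crest.Agent.H0254

open Filter Topology MeasureTheory ENNReal Crest.ProbabilityR.SpanningTrees

noncomputable section

variable {J : Type*} [DecidableEq J]

def chi (T : Finset J) : J → Bool := fun e => decide (e ∈ T)

def unifFam (𝒯 : Finset (Finset J)) : Measure (J → Bool) :=
  (𝒯.card : ℝ≥0∞)⁻¹ • ∑ T ∈ 𝒯, Measure.dirac (chi T)

lemma unifFam_prob {𝒯 : Finset (Finset J)} (h : 𝒯.Nonempty) :
    IsProbabilityMeasure (unifFam 𝒯) := by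
  constructor
  simp only [unifFam, Measure.smul_apply, Measure.coe_finsetSum, Finset.sum_apply,
    measure_univ, Finset.sum_const, nsmul_eq_mul, mul_one, smul_eq_mul]
  exact ENNReal.inv_mul_cancel (by simpa using h.ne_empty) (by simp)

lemma pOf_unifFam (𝒯 : Finset (Finset J)) (F : Finset J) :
    pOf (unifFam 𝒯) F = ((𝒯.filter (F ⊆ ·)).card : ℝ) / 𝒯.card := by
  have : ∀ T : Finset J, Measure.dirac (chi T) {ω | ∀ j ∈ F, ω j = true} =
      if F ⊆ T then 1 else 0 := by
    intro T
    rw [Measure.dirac_apply' _ (measurableSet_all F), Set.indicator_apply]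
    simp [chi, Finset.subset_iff]
  simp only [pOf, measureReal_def, unifFam, Measure.smul_apply, Measure.coe_finsetSum,
    Finset.sum_apply, this, Finset.sum_boole, smul_eq_mul, ENNReal.toReal_mul, ENNReal.toReal_inv,
    ENNReal.toReal_natCast]
  ring

lemma Zc_unifFam {𝒯 : Finset (Finset J)} {Λ : Finset J} (h : ∀ T ∈ 𝒯, T ⊆ Λ) (z : J → ℂ) :
    Zc (pOf (unifFam 𝒯)) Λ z = Wf 𝒯 z / 𝒯.card := by
  unfold Zc Wf
  simp only [pOf_unifFam, Finset.card_filter]
  push_cast
  simp only [← mul_div_assoc, ← Finset.sum_div, Finset.mul_sum]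
  congr 1
  rw [Finset.sum_comm]
  refine Finset.sum_congr rfl fun T hT => ?_
  simp only [apply_ite (Complex.ofReal), Complex.ofReal_one, Complex.ofReal_zero, mul_ite, mul_one,
    mul_zero]
  rw [← Finset.sum_filter]
  have : Λ.powerset.filter (· ⊆ T) = T.powerset := by
    ext F
    simp only [Finset.mem_filter, Finset.mem_powerset]
    exact ⟨fun h => h.2, fun h' => ⟨h'.trans (h T hT), h'⟩⟩
  rw [this, ← Finset.prod_one_add]
  simp

lemma exists_limit [Countable J] (ν : ℕ → Measure (J → Bool)) [∀ n, IsProbabilityMeasure (ν n)]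
    {C : ℝ} (hL : ∀ n, LipMean (pOf (ν n)) C) :
    ∃ μ : Measure (J → Bool), IsProbabilityMeasure μ ∧ LipMean (pOf μ) C ∧
      ∀ F a, Tendsto (fun n => pOf (ν n) F) atTop (𝓝 a) → pOf μ F = a := by
  let νs : ℕ → ProbabilityMeasure (J → Bool) := fun n => ⟨ν n, inferInstance⟩
  obtain ⟨μ, -, hμ⟩ := isCompact_univ.ultrafilter_le_nhds
    ((hyperfilter ℕ).map νs) (by simp)
  have hlim : Tendsto νs (hyperfilter ℕ) (𝓝 μ) := hμ
  have hp : ∀ F, Tendsto (fun n => pOf (ν n) F) (hyperfilter ℕ) (𝓝 (pOf (μ : Measure _) F)) := by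
    intro F
    have hcl : IsClopen {ω : J → Bool | ∀ j ∈ F, ω j = true} := by
      have : {ω : J → Bool | ∀ j ∈ F, ω j = true} =
          ⋂ j ∈ F, (fun ω : J → Bool => ω j) ⁻¹' {true} := by ext; simp
      rw [this]
      exact isClopen_biInter_finset fun j _ =>
        (isClopen_discrete _).preimage (continuous_apply j)
    have := ProbabilityMeasure.tendsto_measure_of_isClopen_of_tendsto hlim hcl
    exact NNReal.tendsto_coe.2 this
  have hZ : ∀ (φ : Finset J → Finset J) (s : Finset J) (h : J → ℝ),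
      Tendsto (fun n => Zp (fun F => pOf (ν n) (φ F)) s h) (hyperfilter ℕ)
        (𝓝 (Zp (fun F => pOf (μ : Measure _) (φ F)) s h)) := fun φ s h =>
    tendsto_finsetSum _ fun F _ => (hp _).const_mul _
  have hm : ∀ s i h, Tendsto (fun n => mean (pOf (ν n)) s i h) (hyperfilter ℕ)
      (𝓝 (mean (pOf (μ : Measure _)) s i h)) := fun s i h =>
    (hZ (insert i) s h).div (hZ id s h) (Zp_pos _ s h).ne'
  refine ⟨μ, inferInstance, fun s i h h' d hd hh => ?_, fun F a ha => ?_⟩
  · exact le_of_tendsto' ((hm s i h).sub (hm s i h')).abs fun n => hL n s i h h' d hd hh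
  · exact tendsto_nhds_unique (hp F) (ha.mono_left (Nat.cofinite_eq_atTop ▸ hyperfilter_le_cofinite))

lemma LipMean.comap {I : Type*} [DecidableEq I] (e : I ↪ J) {p : Finset J → ℝ} {C : ℝ}
    (h : LipMean p C) : LipMean (fun F => p (F.map e)) C := by
  intro s i k k' d hd hk
  have e1 : ∀ k : I → ℝ, k = Function.extend e k 0 ∘ e := fun k =>
    (Function.extend_comp e.injective k 0).symm
  rw [e1 k, e1 k', ← mean_map, ← mean_map]
  refine h _ _ _ _ d hd fun j hj => ?_
  obtain ⟨a, ha, rfl⟩ := Finset.mem_map.1 hj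
  rw [e.injective.extend_apply, e.injective.extend_apply]
  exact hk a ha

theorem exists_fusf {V : Type*} [DecidableEq V] [Countable V] (G : SimpleGraph V)
    (S : ℕ → Finset V) (hmono : Monotone S)
    (hex : ∀ v, ∃ n, v ∈ S n) (hc : ∀ n, (G.induce (S n : Set V)).Connected) :
    ∃ ν : Measure (G.edgeSet → Bool), IsProbabilityMeasure ν ∧ LipMean (pOf ν) 300 ∧
      ∀ F, pOf ν F = pG G (F.map (Function.Embedding.subtype _)) := by
  have hne := fun n => trees_nonempty (conn_edgesIn (hc n)).1 (edgesIn_sub G _)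
    (conn_edgesIn (hc n)).2
  have := fun n => unifFam_prob (hne n)
  obtain ⟨μ, hμ, hL, hlim⟩ := exists_limit (fun n => unifFam (trees (S n) (edgesIn G (S n))))
    (C := 300) fun n => lip_of_stab _ fun s => ⟨s ∪ edgesIn G (S n), Finset.subset_union_left,
      fun z hz => by
        rw [Zc_unifFam fun T hT => (mem_trees.1 hT).1.trans Finset.subset_union_right]
        refine div_ne_zero (trees_stable (conn_edgesIn (hc n)).1 (edgesIn_sub G _)
          (conn_edgesIn (hc n)).2 z fun e he => hz e (Finset.mem_union_right _ he)) ?_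
        exact_mod_cast (hne n).card_pos.ne'⟩
  have hres : Measurable fun (ω : Sym2 V → Bool) (e : G.edgeSet) => ω e := by fun_prop
  have hp : pOf (μ.map fun (ω : Sym2 V → Bool) (e : G.edgeSet) => ω e) =
      fun F => pOf μ (F.map (Function.Embedding.subtype _)) := by
    funext F
    unfold pOf
    rw [map_measureReal_apply hres (measurableSet_all F)]
    congr 1
    ext ω
    simp only [Set.mem_preimage, Set.mem_ofPred_eq, Finset.forall_mem_map]
    rfl
  refine ⟨μ.map fun (ω : Sym2 V → Bool) (e : G.edgeSet) => ω e,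
    Measure.isProbabilityMeasure_map hres.aemeasurable, ?_, fun F => ?_⟩
  · rw [hp]; exact hL.comap _
  · rw [hp]
    refine hlim _ _ ?_
    simp only [pOf_unifFam]
    refine tendsto_ratio G S hmono hex hc _ fun e he => ?_
    obtain ⟨a, -, rfl⟩ := Finset.mem_map.1 he
    exact a.2

end

end Crest.Agent.H0254
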