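import Crest.Agent.H0254.Noise

set_option autoImplicit false

namespace Crest.Agent.H0254

open Filter MeasureTheory ENNReal

noncomputable section

variable {V : Type*}

def rank (G : SimpleGraph V) (k : V → ℝ) (u v : V) : ℕ := {w | G.Adj u w ∧ k w < k v}.ncard

def half (G : SimpleGraph V) (y : V → ℕ → ℝ) (u v : V) : ℝ :=
  if y u 0 < y v 0 then y u (rank G (fun w => y w 0) u v + 1) else 0

def lab (G : SimpleGraph V) (y : V → ℕ → ℝ) : Sym2 V → ℝ :=
  Sym2.lift ⟨fun u v => half G y u v + half G y v u, fun _ _ => add_comm _ _⟩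

lemma rank_comap (σ : Equiv.Perm V) (G : SimpleGraph V) (k : V → ℝ) (u v : V) :
    rank (G.comap σ) (k ∘ σ) u v = rank G k (σ u) (σ v) := by
  unfold rank
  rw [← Set.ncard_image_of_injective _ σ.injective]
  congr 1
  ext w
  simp only [SimpleGraph.comap_adj, Function.comp_apply, Set.mem_image, Set.mem_ofPred_eq]
  constructor
  · rintro ⟨w', h, rfl⟩; exact h
  · intro h; exact ⟨σ.symm w, by simpa using h, by simp⟩

lemma lab_comap (σ : Equiv.Perm V) (G : SimpleGraph V) (y : V → ℕ → ℝ) (e : Sym2 V) :
    lab (G.comap σ) (y ∘ σ) e = lab G y (e.map σ) := by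
  have : ∀ u v, half (G.comap σ) (y ∘ σ) u v = half G y (σ u) (σ v) := by
    intro u v
    unfold half
    rw [← rank_comap]
    rfl
  induction e using Sym2.ind with
  | h u v => simp [lab, this]

lemma measurable_lab [Countable V] {Θ : Type*} [MeasurableSpace Θ] {G : Θ → SimpleGraph V}
    (hG : ∀ u v, Measurable fun θ => (G θ).Adj u v) {y : Θ → V → ℕ → ℝ}
    (hy : ∀ v n, Measurable fun θ => y θ v n) (e : Sym2 V) :
    Measurable fun θ => lab (G θ) (y θ) e := by
  have : ∀ u v, Measurable fun θ => half (G θ) (y θ) u v := by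
    intro u v
    unfold half
    refine Measurable.ite (measurableSet_lt (hy _ _) (hy _ _)) ?_ measurable_const
    have h1 : Measurable fun θ => rank (G θ) (fun w => y θ w 0) u v := by
      refine measurable_ncard.comp (measurable_set_iff.2 fun w => ?_)
      exact (hG u w).and (measurableSet_setOfPred.1 (measurableSet_lt (hy _ _) (hy _ _)))
    have h2 : Measurable fun q : Θ × ℕ => y q.1 u (q.2 + 1) :=
      measurable_from_prod_countable_left fun n => hy u (n + 1)
    exact h2.comp (measurable_id.prodMk h1)
  induction e using Sym2.ind with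
  | h u v => exact (this u v).add (this v u)

lemma mixing {ι : Type*} (Q : ι → Prop) [DecidablePred Q] :
    ((lapI ι).prod (lapI ι)).map (fun q i => if Q i then q.1 i else q.2 i) = lapI ι := by
  have hm : Measurable fun (q : (ι → ℝ) × (ι → ℝ)) i => if Q i then q.1 i else q.2 i := by
    refine measurable_pi_lambda _ fun i => ?_
    split_ifs <;> fun_prop
  refine Measure.eq_infinitePi _ fun s t ht => ?_
  rw [Measure.map_apply hm (MeasurableSet.pi s.countable_toSet fun _ _ => ht _)]
  have : (fun (q : (ι → ℝ) × (ι → ℝ)) i => if Q i then q.1 i else q.2 i) ⁻¹' (s : Set ι).pi t =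
      ((s.filter Q : Finset ι) : Set ι).pi t ×ˢ ((s.filter (¬ Q ·) : Finset ι) : Set ι).pi t := by
    ext ⟨a, b⟩
    simp only [Set.mem_preimage, Set.mem_pi, Finset.mem_coe, Set.mem_prod, Finset.mem_filter]
    constructor
    · intro h
      exact ⟨fun i hi => by simpa [hi.2] using h i hi.1, fun i hi => by simpa [hi.2] using h i hi.1⟩
    · rintro ⟨h1, h2⟩ i hi
      split_ifs with hq
      · exact h1 i ⟨hi, hq⟩
      · exact h2 i ⟨hi, hq⟩
  rw [this, Measure.prod_prod, Measure.infinitePi_pi _ (fun i _ => ht i),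
    Measure.infinitePi_pi _ (fun i _ => ht i), Finset.prod_filter_mul_prod_filter_not]

lemma lap_singleton (x : ℝ) : lap {x} = 0 := by
  simp only [lap, Measure.smul_apply, smul_eq_mul]
  rw [withDensity_absolutelyContinuous _ _ (measure_singleton x), mul_zero]

lemma ae_ne {ι : Type*} {i j : ι} (hij : i ≠ j) : ∀ᵐ a ∂lapI ι, a i ≠ a j := by
  classical
  have hm : MeasurableSet {a : ι → ℝ | a i = a j} :=
    measurableSet_eq_fun (measurable_pi_apply i) (measurable_pi_apply j)
  rw [ae_iff]
  simp only [ne_eq, not_not]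
  rw [← lintegral_indicator_one hm, lintegral_resample lap i (measurable_one.indicator hm)]
  refine (lintegral_congr fun w => ?_).trans lintegral_zero
  rw [← lap_singleton (w j), ← lintegral_indicator_one (measurableSet_singleton _)]
  refine lintegral_congr fun v => ?_
  simp only [Set.indicator_apply, Set.mem_ofPred_eq, Function.update_self,
    Function.update_of_ne hij.symm, Set.mem_singleton_iff, Pi.one_apply]

lemma rank_inj {G : SimpleGraph V} (hG : ∀ v, (G.neighborSet v).Finite) {k : V → ℝ}
    (hk : Function.Injective k) {u v v' : V} (hv : G.Adj u v) (hv' : G.Adj u v')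
    (h : rank G k u v = rank G k u v') : v = v' := by
  have key : ∀ a b, G.Adj u a → k a < k b → rank G k u a < rank G k u b := by
    intro a b ha hab
    refine Set.ncard_lt_ncard ⟨fun w hw => ⟨hw.1, hw.2.trans hab⟩, fun hsub => ?_⟩
      ((hG u).subset fun w hw => hw.1)
    exact lt_irrefl _ (hsub ⟨ha, hab⟩).2
  rcases lt_trichotomy (k v) (k v') with h1 | h1 | h1
  · exact absurd h (key _ _ hv h1).ne
  · exact hk h1
  · exact absurd h (key _ _ hv' h1).ne'

theorem law_lab [Countable V] {G : SimpleGraph V} (hG : ∀ v, (G.neighborSet v).Finite) :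
    (Measure.infinitePi fun _ : V => lapI ℕ).map (fun y (e : G.edgeSet) => lab G y e) =
      lapI G.edgeSet := by
  have hm : Measurable fun (y : V → ℕ → ℝ) (e : G.edgeSet) => lab G y e :=
    measurable_pi_lambda _ fun e => measurable_lab (G := fun _ => G)
      (fun _ _ => measurable_const) (y := fun y => y) (fun v n => by fun_prop) e
  have hmix : Measurable fun (q : (V × ℕ → ℝ) × (V × ℕ → ℝ)) (i : V × ℕ) =>
      if i.2 = 0 then q.1 i else q.2 i := by
    refine measurable_pi_lambda _ fun i => ?_
    split_ifs <;> fun_prop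
  rw [← Measure.infinitePi_map_curry (fun _ _ => lap),
    Measure.map_map hm (MeasurableEquiv.measurable _)]
  change (lapI (V × ℕ)).map _ = _
  rw [← mixing (fun i : V × ℕ => i.2 = 0),
    Measure.map_map (hm.comp (MeasurableEquiv.measurable _)) hmix]
  ext B hB
  have hall := (hm.comp (MeasurableEquiv.curry V ℕ ℝ).measurable).comp hmix
  rw [Measure.map_apply hall hB, Measure.prod_apply (hall hB)]
  have hae : ∀ᵐ a ∂lapI (V × ℕ), Function.Injective fun v => a (v, 0) := by
    have : ∀ᵐ a ∂lapI (V × ℕ), ∀ u v : V, u ≠ v → a (u, 0) ≠ a (v, 0) := by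
      rw [ae_all_iff]; intro u
      rw [ae_all_iff]; intro v
      by_cases h : u = v
      · exact Eventually.of_forall fun _ h' => absurd h h'
      · filter_upwards [ae_ne (ι := V × ℕ) (i := (u, 0)) (j := (v, 0)) (by simpa using h)]
          with a ha _ using ha
    filter_upwards [this] with a ha u v huv
    by_contra h
    exact ha u v h huv
  refine (lintegral_congr_ae (g := fun _ => lapI G.edgeSet B) ?_).trans (by simp)
  filter_upwards [hae] with a ha
  set k : V → ℝ := fun v => a (v, 0) with hk
  have hor : ∀ e : G.edgeSet, ∃ u v, (e : Sym2 V) = s(u, v) ∧ G.Adj u v ∧ k u < k v := by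
    rintro ⟨e, he⟩
    induction e using Sym2.ind with
    | h u v =>
      have hadj : G.Adj u v := he
      rcases lt_trichotomy (k u) (k v) with h | h | h
      · exact ⟨u, v, rfl, hadj, h⟩
      · exact absurd (ha h) hadj.ne
      · exact ⟨v, u, Sym2.eq_swap, hadj.symm, h⟩
  choose u v h1 h2 h3 using hor
  set φ : G.edgeSet → V × ℕ := fun e => (u e, rank G k (u e) (v e) + 1) with hφ
  have hφi : Function.Injective φ := by
    intro e e' h
    simp only [hφ, Prod.mk.injEq, Nat.add_right_cancel_iff] at h
    obtain ⟨hu, hr⟩ := h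
    rw [← hu] at hr
    have := rank_inj hG ha (h2 e) (hu ▸ h2 e') hr
    exact Subtype.ext (by rw [h1, h1, hu, this])
  have hlaw := Measure.map_infinitePi_infinitePi_of_inj (P := fun _ : V × ℕ => lap) hφi
  rw [lapI, lapI, ← hlaw, Measure.map_apply (by fun_prop) hB]
  congr 1
  ext b
  simp only [Set.mem_preimage, Function.comp_apply]
  congr! 1
  funext e
  rw [h1 e]
  have e3 := h3 e
  simp only [hk] at e3
  simp [lab, half, MeasurableEquiv.curry, e3, e3.not_gt, hφ, hk]

end

end Crest.Agent.H0254
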