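import Crest.Agent.H0254.Approx

set_option autoImplicit false

namespace Crest.Agent.H0254

open Filter MeasureTheory ENNReal ProbabilityTheory Topology

noncomputable section

lemma errA_eventually {C : ℝ} (hC : 0 ≤ C) :
    ∀ᶠ T : ℕ in atTop, errA C ((2 : ℝ)⁻¹ ^ (T * T)) (T * 2 ^ (T * T)) ≤ 1 / 2 := by
  obtain ⟨K, hK⟩ := pow_unbounded_of_one_lt (Real.exp (2 * C)) (one_lt_two (α := ℝ))
  filter_upwards [eventually_ge_atTop (K + 2)] with T hT
  set δ : ℝ := (2 : ℝ)⁻¹ ^ (T * T) with hδ
  have hδ0 : 0 < δ := by positivity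
  have hδ1 : δ * 2 ^ (T * T) = 1 := by rw [hδ, ← mul_pow]; simp
  have h1 : (1 + 2 * C * δ) ^ (T * 2 ^ (T * T)) ≤ Real.exp (2 * C) ^ T := by
    calc _ ≤ Real.exp (2 * C * δ) ^ (T * 2 ^ (T * T)) := by
          gcongr
          linarith [Real.add_one_le_exp (2 * C * δ)]
      _ = Real.exp (2 * C) ^ T := by
          rw [← Real.exp_nat_mul, ← Real.exp_nat_mul]
          congr 1
          push_cast
          linear_combination (T * 2 * C) * hδ1
  have h2 : 3 * Real.exp (2 * C) ^ T ≤ 2 ^ (T * T) := by
    calc 3 * Real.exp (2 * C) ^ T ≤ 4 ^ T * (2 ^ K) ^ T := by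
          gcongr
          calc (3 : ℝ) ≤ 4 ^ 1 := by norm_num
            _ ≤ 4 ^ T := pow_le_pow_right₀ (by norm_num) (by omega)
      _ = (2 ^ (K + 2)) ^ T := by rw [← mul_pow]; congr 1; ring
      _ ≤ (2 ^ T) ^ T := by gcongr; norm_num
      _ = _ := by rw [← pow_mul]
  unfold errA
  nlinarith

lemma lap_window : ∃ c : ℝ, 0 ≤ c ∧ ∀ a : ℝ, lap.real {y | |y - a| ≤ 4} ≤ c * Real.exp (-|a|) := by
  set c0 : ℝ≥0∞ := (∫⁻ x, lapDens x)⁻¹ with hc0
  have hc0' : c0 ≠ ∞ := ENNReal.inv_ne_top.2 lapMass_pos.ne'
  refine ⟨c0.toReal * (Real.exp 4 * 8), by positivity, fun a => ?_⟩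
  have hA : {y : ℝ | |y - a| ≤ 4} = Set.Icc (a - 4) (a + 4) := by
    ext y; simp only [Set.mem_ofPred_eq, Set.mem_Icc, abs_le]
    constructor <;> rintro ⟨h1, h2⟩ <;> constructor <;> linarith
  have h1 : lap {y | |y - a| ≤ 4} ≤ c0 * (ENNReal.ofReal (Real.exp (4 - |a|)) * ENNReal.ofReal 8) := by
    rw [hA, lap, Measure.smul_apply, smul_eq_mul, withDensity_apply _ measurableSet_Icc]
    gcongr
    calc _ ≤ ∫⁻ _ in Set.Icc (a - 4) (a + 4), ENNReal.ofReal (Real.exp (4 - |a|)) := by
          refine setLIntegral_mono measurable_const fun x hx => ?_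
          refine ENNReal.ofReal_le_ofReal (Real.exp_le_exp.2 ?_)
          rw [← hA] at hx
          have := abs_sub_abs_le_abs_sub a x
          rw [abs_sub_comm] at this
          simp only [Set.mem_ofPred_eq] at hx
          linarith
      _ = _ := by
          rw [setLIntegral_const, Real.volume_Icc]
          congr 2; ring
  have h2 := ENNReal.toReal_mono (by finiteness) h1
  rw [ENNReal.toReal_mul, ENNReal.toReal_mul, ENNReal.toReal_ofReal (Real.exp_pos _).le,
    ENNReal.toReal_ofReal (by norm_num), sub_eq_add_neg, Real.exp_add] at h2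
  exact h2.trans (le_of_eq (by ring))

lemma sign_stable {g : ℕ → ℝ} (h1 : ∀ᶠ T in atTop, 3 < |g T|)
    (h2 : ∀ᶠ T in atTop, |g (T + 1) - g T| ≤ 3) :
    ∀ᶠ T in atTop, ((∀ᶠ T' in atTop, 0 < g T') ↔ 0 < g T) := by
  obtain ⟨N, hN⟩ := eventually_atTop.1 (h1.and h2)
  have key : ∀ T, N ≤ T → (0 < g T ↔ 0 < g N) := by
    intro T hT
    induction T, hT using Nat.le_induction with
    | base => rfl
    | succ T hT ih =>
      rw [← ih]
      have a1 := (hN T hT).1
      have a2 := abs_le.1 (hN T hT).2
      have a3 := (hN (T + 1) (by omega)).1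
      rw [lt_abs] at a1 a3
      constructor <;> intro h <;> rcases a1 with a1 | a1 <;> rcases a3 with a3 | a3 <;> linarith
  filter_upwards [eventually_ge_atTop N] with T hT
  constructor
  · intro h
    obtain ⟨T', h1, h2⟩ := (h.and (eventually_ge_atTop N)).exists
    exact (key T hT).2 ((key T' h2).1 h1)
  · intro h
    filter_upwards [eventually_ge_atTop N] with T' hT'
    exact (key T' hT').2 ((key T hT).1 h)

variable {I : Type*}

lemma transfer_le {A : Set (I → ℝ)} {B G : ℕ → Set (Om I)} {b : ℝ}
    (hB : Tendsto (fun n => (PP I).real (B n)) atTop (𝓝 0)) (hG : ∀ n, (PP I).real (G n) ≤ b)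
    (hsub : ∀ n w, w.1 ∈ A → w ∈ B n ∨ w ∈ G n) : (lapI I).real A ≤ b := by
  have h1 : (lapI I).real A = (PP I).real (A ×ˢ Set.univ) := by
    simp [measureReal_def, Measure.prod_prod]
  have h2 : Tendsto (fun n => (PP I).real (B n) + b) atTop (𝓝 b) := by
    simpa using hB.add_const b
  refine ge_of_tendsto' h2 fun n => ?_
  rw [h1]
  refine (measureReal_mono (s₂ := B n ∪ G n) (fun w hw => hsub n w hw.1)
    (measure_ne_top _ _)).trans ((measureReal_union_le _ _).trans ?_)
  linarith [hG n]

lemma P0_snd_real (ν : Measure (I → Bool)) [IsProbabilityMeasure ν] (i : I) {S : Set ℝ}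
    (hS : MeasurableSet S) : (P0 ν).real {w | w.2 i ∈ S} = lap.real S := by
  have : MeasurePreserving (fun w : (I → Bool) × (I → ℝ) => w.2 i) (P0 ν) lap :=
    (measurePreserving_eval_infinitePi (fun _ : I => lap) i).comp measurePreserving_snd
  rw [← this.map_eq, map_measureReal_apply this.measurable hS]
  rfl

variable [DecidableEq I] [Countable I] {ν : Measure (I → Bool)}
  [IsProbabilityMeasure ν] {Λ : I → ℕ → Finset I}

theorem main_law (hmono : ∀ i, Monotone (Λ i)) (hex : ∀ i j, ∃ n, j ∈ Λ i n)
    {C : ℝ} (hC : 0 ≤ C) (hL : LipMean (pOf ν) C) :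
    (lapI I).map (rule (pOf ν) Λ) = ν := by
  choose R hR hlaw hdr using exists_resampler ν Λ hmono hex
  set Y : ℕ → ℕ → Om I → I → ℝ := fun T n w => chain R ((2 : ℝ)⁻¹ ^ n) w (T * 2 ^ n) with hY
  have hYm : ∀ T n, Measurable (Y T n) := fun T n => measurable_chain hR _ _
  have hYlaw : ∀ T n, (PP I).map (Y T n) = muT ν T := by
    intro T n
    rw [hY]
    simp only
    rw [law_chain hR hlaw]
    congr 1
    push_cast
    rw [mul_assoc, ← mul_pow]; simp
  have hgm : ∀ T i, Measurable fun z : I → ℝ => gT (pOf ν) Λ T z i := fun T i =>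
    ((measurable_pi_apply i).comp (measurable_eul' _ Λ _ _)).sub_const _
  have hrm : Measurable (rule (pOf ν) Λ) := measurable_pi_lambda _ fun i =>
    measurable_rule (Θ := I → ℝ) (p := fun _ => pOf ν)
      (fun _ => measurable_const) (Λ := fun _ => Λ) (fun _ _ _ => MeasurableSet.const _)
      (z := fun z => z) (fun j => measurable_pi_apply j) i
  have hclose : ∀ᶠ T : ℕ in atTop, ∀ i, Tendsto (fun n => (PP I).real
      {w | 1 < |Y T n w i - T / 2 - gT (pOf ν) Λ T w.1 i|}) atTop (𝓝 0) := by
    filter_upwards [errA_eventually hC] with T hT i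
    have h1 := approx hR hlaw hdr hC hL (δ := (2 : ℝ)⁻¹ ^ (T * T)) (by positivity)
      (ε := fun n => (2 : ℝ)⁻¹ ^ n) (fun n => by positivity)
      (tendsto_pow_atTop_nhds_zero_of_lt_one (by norm_num) (by norm_num))
      (r := fun n => 2 ^ (n - T * T)) (by
        filter_upwards [eventually_ge_atTop (T * T)] with n hn
        obtain ⟨m, rfl⟩ := Nat.exists_eq_add_of_le hn
        rw [Nat.add_sub_cancel_left, pow_add]
        push_cast
        rw [mul_left_comm, ← mul_pow]; simp) (T * 2 ^ (T * T)) i (η := 1 / 2) (by norm_num)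
    refine squeeze_zero' (Eventually.of_forall fun _ => measureReal_nonneg) ?_ h1
    filter_upwards [eventually_ge_atTop (T * T)] with n hn
    refine measureReal_mono (fun w hw => ?_) (measure_ne_top _ _)
    simp only [Set.mem_ofPred_eq, hY, gT] at hw ⊢
    rw [mul_assoc, ← pow_add, Nat.add_sub_cancel' hn]
    rw [sub_sub_sub_cancel_right] at hw
    linarith
  -- no jumps
  have hjump : ∀ i, ∀ᵐ z ∂lapI I, ∀ᶠ T : ℕ in atTop,
      |gT (pOf ν) Λ (T + 1) z i - gT (pOf ν) Λ T z i| ≤ 3 := by
    intro i
    obtain ⟨N, hN⟩ := eventually_atTop.1 hclose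
    have : ∀ T, ∀ᵐ z ∂lapI I, N ≤ T → |gT (pOf ν) Λ (T + 1) z i - gT (pOf ν) Λ T z i| ≤ 3 := by
      intro T
      by_cases hT : N ≤ T
      · have h0 : (lapI I).real {z | ¬ |gT (pOf ν) Λ (T + 1) z i - gT (pOf ν) Λ T z i| ≤ 3} ≤ 0 := by
          refine transfer_le (G := fun _ => ∅)
            (B := fun n => {w | 1 < |Y T n w i - T / 2 - gT (pOf ν) Λ T w.1 i|} ∪
              {w | 1 < |Y (T + 1) n w i - (T + 1 : ℕ) / 2 - gT (pOf ν) Λ (T + 1) w.1 i|}) ?_
              (fun _ => by simp) ?_
          · refine squeeze_zero (fun _ => measureReal_nonneg) (fun n => measureReal_union_le _ _) ?_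
            simpa using (hN T hT i).add (hN (T + 1) (by omega) i)
          · intro n w hw
            left
            by_contra hcon
            simp only [Set.mem_union, Set.mem_ofPred_eq, not_or, not_lt] at hcon hw
            apply hw
            have e1 := chain_incr (R := R) (ε := (2 : ℝ)⁻¹ ^ n) (by positivity) w (T * 2 ^ n)
              (2 ^ n) i
            have e2 : ((2 ^ n : ℕ) : ℝ) * (2 : ℝ)⁻¹ ^ n = 1 := by
              push_cast; rw [← mul_pow]; simp
            rw [e2, show T * 2 ^ n + 2 ^ n = (T + 1) * 2 ^ n by ring] at e1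
            have a1 := abs_le.1 hcon.1
            have a2 := abs_le.1 hcon.2
            simp only [hY] at a1 a2
            push_cast at a2
            rw [abs_le]; constructor <;> linarith
        have h1 := le_antisymm h0 measureReal_nonneg
        rw [measureReal_eq_zero_iff] at h1
        filter_upwards [ae_iff.2 h1] with z hz _ using hz
      · exact Eventually.of_forall fun _ h => absurd h hT
    filter_upwards [ae_all_iff.2 this] with z hz
    filter_upwards [eventually_ge_atTop N] with T hT using hz T hT
  -- far from zero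
  have hfar : ∀ i, ∀ᵐ z ∂lapI I, ∀ᶠ T : ℕ in atTop, 3 < |gT (pOf ν) Λ T z i| := by
    intro i
    obtain ⟨N, hN⟩ := eventually_atTop.1 hclose
    obtain ⟨c, hc0, hc⟩ := lap_window
    have hb : ∀ T : ℕ, (lapI I) {z | N ≤ T ∧ |gT (pOf ν) Λ T z i| ≤ 3} ≤
        ENNReal.ofReal (2 * c * Real.exp (-(1 / 2)) ^ T) := by
      intro T
      by_cases hT : N ≤ T
      · rw [← ofReal_measureReal]
        refine ENNReal.ofReal_le_ofReal ?_
        refine transfer_le (hN T hT i) (G := fun n => Y T n ⁻¹' {x | |x i - T / 2| ≤ 4}) ?_ ?_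
        · intro n
          have hm : MeasurableSet {x : I → ℝ | |x i - T / 2| ≤ 4} :=
            measurableSet_le (by fun_prop) measurable_const
          rw [← map_measureReal_apply (hYm T n) hm, hYlaw, muT,
            map_measureReal_apply (measurable_Xt _) hm]
          have hw : ∀ a : ℝ, MeasurableSet {y : ℝ | |y - a| ≤ 4} := fun a =>
            measurableSet_le (by fun_prop) measurable_const
          refine (measureReal_mono (s₂ := {w | w.2 i ∈ {y : ℝ | |y - T / 2| ≤ 4}} ∪
            {w | w.2 i ∈ {y : ℝ | |y - (-(T / 2))| ≤ 4}}) ?_ (measure_ne_top _ _)).trans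
            ((measureReal_union_le _ _).trans ?_)
          · intro w hw
            simp only [Set.mem_preimage, Set.mem_ofPred_eq, Xt, Set.mem_union] at hw ⊢
            cases h : w.1 i
            · left; simpa [h, bit] using hw
            · right
              simp only [h, bit, if_true] at hw
              convert hw using 2; ring
          · rw [P0_snd_real ν i (hw _), P0_snd_real ν i (hw _)]
            have e1 := hc (T / 2)
            have e2 := hc (-(T / 2))
            rw [abs_neg] at e2
            rw [abs_of_nonneg (by positivity)] at e1 e2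
            rw [← Real.exp_nat_mul, show (T : ℝ) * -(1 / 2) = -(T / 2) by ring]
            linarith
        · intro n w hw
          by_contra hcon
          simp only [Set.mem_ofPred_eq, not_or, not_lt, Set.mem_preimage, not_le] at hcon hw
          have a1 := abs_le.1 hcon.1
          have a2 := abs_le.1 hw.2
          have : |Y T n w i - T / 2| ≤ 4 := by rw [abs_le]; constructor <;> linarith
          linarith [hcon.2]
      · simp [hT]
    have hs : Summable fun T : ℕ => 2 * c * Real.exp (-(1 / 2)) ^ T :=
      (summable_geometric_of_lt_one (Real.exp_pos _).le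
        (Real.exp_lt_one_iff.2 (by norm_num))).mul_left _
    have := ae_eventually_notMem (μ := lapI I)
      (s := fun T : ℕ => {z | N ≤ T ∧ |gT (pOf ν) Λ T z i| ≤ 3})
      (ne_top_of_le_ne_top hs.tsum_ofReal_ne_top (ENNReal.tsum_le_tsum hb))
    filter_upwards [this] with z hz
    filter_upwards [hz, eventually_ge_atTop N] with T h1 h2
    simpa [h2] using h1
  have hstab : ∀ᵐ z ∂lapI I, ∀ i, ∀ᶠ T : ℕ in atTop,
      rule (pOf ν) Λ z i = decide (0 < gT (pOf ν) Λ T z i) := by
    rw [ae_all_iff]
    intro i
    filter_upwards [hjump i, hfar i] with z h1 h2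
    filter_upwards [sign_stable h2 h1] with T hT
    simp only [rule, hT]
  -- one-sided comparison
  have hle : ∀ (A : Set (I → Bool)) (s : Finset I), MeasurableSet A →
      (∀ ω ω', (∀ i ∈ s, ω i = ω' i) → (ω ∈ A ↔ ω' ∈ A)) →
      (lapI I).real (rule (pOf ν) Λ ⁻¹' A) ≤ ν.real A := by
    intro A s hA hdep
    have t1 := tendsto_real_zero (lapI I)
      (B := fun T => ⋃ i ∈ s, {z | rule (pOf ν) Λ z i ≠ decide (0 < gT (pOf ν) Λ T z i)})
      (fun T => Finset.measurableSet_biUnion s fun i _ => by
        refine (measurableSet_eq_fun ((measurable_pi_apply i).comp hrm) ?_).compl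
        exact measurable_to_bool (by
          simpa [Set.preimage] using measurableSet_lt measurable_const (hgm T i)))
      (by
        filter_upwards [hstab] with z hz
        filter_upwards [(eventually_all_finset s).2 fun i _ => hz i] with T hT
        simpa using hT)
    have t2 := tendsto_real_zero lap (B := fun T : ℕ => {y | (T : ℝ) / 2 - 1 ≤ |y|})
      (fun T => measurableSet_le measurable_const (by fun_prop))
      (Eventually.of_forall fun y => by
        filter_upwards [tendsto_natCast_atTop_atTop.eventually_gt_atTop (2 * |y| + 2)] with T hT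
        simp only [Set.mem_ofPred_eq, not_le]
        linarith)
    have t3 := (t1.add (t2.const_mul (s.card : ℝ))).const_add (ν.real A)
    simp only [mul_zero, add_zero] at t3
    refine ge_of_tendsto t3 ?_
    filter_upwards [hclose] with T hT
    have b1 : (lapI I).real {z | (fun i => decide (0 < gT (pOf ν) Λ T z i)) ∈ A} ≤
        ν.real A + s.card * lap.real {y | (T : ℝ) / 2 - 1 ≤ |y|} := by
      set G : Set (I → ℝ) := (fun x i => decide ((T : ℝ) / 2 < x i)) ⁻¹' A ∪
        ⋃ i ∈ s, {x | |x i - T / 2| ≤ 1} with hG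
      have hGm : MeasurableSet G := by
        refine MeasurableSet.union (measurable_pi_lambda _ (fun i => ?_) hA)
          (Finset.measurableSet_biUnion s fun i _ =>
            measurableSet_le (by fun_prop) measurable_const)
        exact measurable_to_bool (by
          simpa [Set.preimage] using measurableSet_lt measurable_const (measurable_pi_apply i))
      refine transfer_le
        (B := fun n => ⋃ i ∈ s, {w | 1 < |Y T n w i - T / 2 - gT (pOf ν) Λ T w.1 i|})
        (G := fun n => Y T n ⁻¹' G) ?_ ?_ ?_
      · refine squeeze_zero (fun _ => measureReal_nonneg)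
          (fun n => measureReal_biUnion_finset_le _ _) ?_
        simpa using tendsto_finsetSum s fun i _ => hT i
      · intro n
        rw [← map_measureReal_apply (hYm T n) hGm, hYlaw, muT,
          map_measureReal_apply (measurable_Xt _) hGm]
        refine (measureReal_mono (s₂ := A ×ˢ Set.univ ∪
          ⋃ i ∈ s, {w : (I → Bool) × (I → ℝ) | w.2 i ∈ {y : ℝ | (T : ℝ) / 2 - 1 ≤ |y|}}) ?_ (measure_ne_top _ _)).trans
          ((measureReal_union_le _ _).trans (add_le_add ?_ ?_))
        · intro w hw
          by_contra hcon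
          simp only [Set.mem_union, Set.mem_prod, Set.mem_univ, and_true, Set.mem_iUnion,
            Set.mem_ofPred_eq, not_or, not_exists, not_le, hG, Set.mem_preimage] at hcon hw
          obtain ⟨h1, h2⟩ := hcon
          have key : ∀ i ∈ s, (decide ((T : ℝ) / 2 < Xt T w i) = w.1 i) ∧
              1 < |Xt T w i - T / 2| := by
            intro i hi
            have := abs_lt.1 (h2 i hi)
            cases h : w.1 i
            · simp only [Xt, h, bit, Bool.false_eq_true, if_false, mul_zero, add_zero,
                decide_eq_false_iff_not, not_lt, lt_abs]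
              exact ⟨by linarith, Or.inr (by linarith)⟩
            · simp only [Xt, h, bit, if_true, mul_one, decide_eq_true_eq, lt_abs]
              exact ⟨by linarith, Or.inl (by linarith)⟩
          rcases hw with hw | ⟨i, hi, hw⟩
          · exact h1 ((hdep _ _ fun i hi => (key i hi).1).1 hw)
          · linarith [(key i hi).2]
        · simp [measureReal_def, Measure.prod_prod]
        · refine (measureReal_biUnion_finset_le _ _).trans (le_of_eq ?_)
          rw [Finset.sum_congr rfl fun i _ => P0_snd_real ν i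
            (measurableSet_le measurable_const (by fun_prop))]
          simp
      · intro n w hw
        by_contra hcon
        simp only [Set.mem_iUnion, Set.mem_ofPred_eq, not_or, not_exists, not_lt, hG,
          Set.mem_preimage, Set.mem_union, not_le] at hcon hw
        obtain ⟨h1, h2, h3⟩ := hcon
        refine h2 ((hdep _ _ fun i hi => ?_).1 hw)
        have a1 := abs_le.1 (h1 i hi)
        have a2 := h3 i hi
        rw [lt_abs] at a2
        simp only [decide_eq_decide]
        constructor <;> intro h <;> rcases a2 with a2 | a2 <;> linarith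
    refine (measureReal_mono (s₂ := {z | (fun i => decide (0 < gT (pOf ν) Λ T z i)) ∈ A} ∪
      ⋃ i ∈ s, {z | rule (pOf ν) Λ z i ≠ decide (0 < gT (pOf ν) Λ T z i)}) ?_
      (measure_ne_top _ _)).trans ((measureReal_union_le _ _).trans (by linarith))
    intro z hz
    by_contra hcon
    simp only [Set.mem_union, Set.mem_ofPred_eq, Set.mem_iUnion, not_or, not_exists, ne_eq,
      not_not, Set.mem_preimage] at hcon hz
    exact hcon.1 ((hdep _ _ hcon.2).1 hz)
  haveI : IsProbabilityMeasure ((lapI I).map (rule (pOf ν) Λ)) :=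
    Measure.isProbabilityMeasure_map hrm.aemeasurable
  refine ext_of_generate_finite _ generateFrom_measurableCylinders.symm
    isPiSystem_measurableCylinders (fun A hA => ?_) (by simp)
  have hAm : MeasurableSet A := MeasurableSet.of_mem_measurableCylinders hA
  obtain ⟨s, S, -, rfl⟩ := (mem_measurableCylinders A).1 hA
  have hdep : ∀ ω ω' : I → Bool, (∀ i ∈ s, ω i = ω' i) →
      (ω ∈ cylinder s S ↔ ω' ∈ cylinder s S) := by
    intro ω ω' h
    have : s.restrict ω = s.restrict ω' := funext fun j => h j j.2
    simp only [mem_cylinder, this]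
  have h1 := hle _ s hAm hdep
  have h2 := hle _ s hAm.compl fun ω ω' h => (hdep ω ω' h).not
  rw [← map_measureReal_apply hrm hAm] at h1
  rw [← map_measureReal_apply hrm hAm.compl, probReal_compl_eq_one_sub hAm,
    probReal_compl_eq_one_sub hAm] at h2
  exact (measureReal_eq_measureReal_iff (measure_ne_top _ _) (measure_ne_top _ _)).1
    (le_antisymm h1 (by linarith))

end

end Crest.Agent.H0254
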