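import Crest.Agent.H0254.Rule

set_option autoImplicit false

namespace Crest.Agent.H0254

open Filter MeasureTheory ENNReal

noncomputable section

lemma resample {ι α : Type*} [DecidableEq ι] [MeasurableSpace α] (μ : Measure α)
    [IsProbabilityMeasure μ] (l : ι) :
    MeasurePreserving (fun q : (ι → α) × α => Function.update q.1 l q.2)
      ((Measure.infinitePi fun _ : ι => μ).prod μ) (Measure.infinitePi fun _ : ι => μ) := by
  have hm : Measurable (fun q : (ι → α) × α => Function.update q.1 l q.2) :=
    measurable_update'
  refine ⟨hm, Measure.eq_infinitePi _ fun s t ht => ?_⟩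
  rw [Measure.map_apply hm (MeasurableSet.pi s.countable_toSet fun _ _ => ht _)]
  by_cases hl : l ∈ s
  · have : (fun q : (ι → α) × α => Function.update q.1 l q.2) ⁻¹' (s : Set ι).pi t =
        ((s.erase l : Finset ι) : Set ι).pi t ×ˢ t l := by
      ext ⟨w, v⟩
      simp only [Set.mem_preimage, Set.mem_pi, Finset.mem_coe, Set.mem_prod, Finset.mem_erase]
      constructor
      · intro h
        refine ⟨fun i hi => ?_, ?_⟩
        · have := h i hi.2
          rwa [Function.update_of_ne hi.1] at this
        · simpa using h l hl
      · rintro ⟨h1, h2⟩ i hi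
        by_cases hil : i = l
        · subst hil; simpa using h2
        · rw [Function.update_of_ne hil]; exact h1 i ⟨hil, hi⟩
    rw [this, Measure.prod_prod, Measure.infinitePi_pi _ (fun i _ => ht i),
      Finset.prod_erase_mul _ _ hl]
  · have : (fun q : (ι → α) × α => Function.update q.1 l q.2) ⁻¹' (s : Set ι).pi t =
        (s : Set ι).pi t ×ˢ Set.univ := by
      ext ⟨w, v⟩
      simp only [Set.mem_preimage, Set.mem_pi, Finset.mem_coe, Set.mem_prod, Set.mem_univ,
        and_true]
      refine forall₂_congr fun i hi => ?_
      rw [Function.update_of_ne (by rintro rfl; exact hl hi)]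
    rw [this, Measure.prod_prod, Measure.infinitePi_pi _ (fun i _ => ht i)]
    simp

lemma lintegral_resample {ι α : Type*} [DecidableEq ι] [MeasurableSpace α] (μ : Measure α)
    [IsProbabilityMeasure μ] (l : ι) {f : (ι → α) → ℝ≥0∞} (hf : Measurable f) :
    ∫⁻ w, f w ∂(Measure.infinitePi fun _ : ι => μ) =
      ∫⁻ w, ∫⁻ v, f (Function.update w l v) ∂μ ∂(Measure.infinitePi fun _ : ι => μ) := by
  rw [← (resample μ l).lintegral_comp hf, lintegral_prod]
  exact (hf.comp measurable_update').aemeasurable

def lapDens (x : ℝ) : ℝ≥0∞ := ENNReal.ofReal (Real.exp (-|x|))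

lemma measurable_lapDens : Measurable lapDens := by unfold lapDens; fun_prop

lemma lapMass_lt_top : ∫⁻ x, lapDens x < ∞ := by
  have h : Integrable (fun x : ℝ => Real.exp (-|x|)) := by
    refine Integrable.mono' (integrable_inv_one_add_sq.const_mul 2) (by fun_prop)
      (Eventually.of_forall fun x => ?_)
    rw [Real.norm_eq_abs, abs_of_pos (Real.exp_pos _), Real.exp_neg]
    have h1 := Real.quadratic_le_exp_of_nonneg (abs_nonneg x)
    have h2 : (1 + x ^ 2) / 2 ≤ Real.exp |x| := by
      rw [sq_abs] at h1
      have := abs_nonneg x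
      linarith
    calc (Real.exp |x|)⁻¹ ≤ ((1 + x ^ 2) / 2)⁻¹ := inv_anti₀ (by positivity) h2
      _ = 2 * (1 + x ^ 2)⁻¹ := by field_simp
  exact h.lintegral_lt_top

lemma lapMass_pos : 0 < ∫⁻ x, lapDens x := by
  rw [lintegral_pos_iff_support measurable_lapDens]
  have : Function.support lapDens = Set.univ := by
    ext x
    simp [lapDens, Real.exp_pos]
  simp [this]

/-- the Laplace law. -/
def lap : Measure ℝ := (∫⁻ x, lapDens x)⁻¹ • volume.withDensity lapDens

instance : IsProbabilityMeasure lap := by
  constructor
  simp only [lap, Measure.smul_apply, smul_eq_mul]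
  rw [withDensity_apply _ MeasurableSet.univ, Measure.restrict_univ]
  exact ENNReal.inv_mul_cancel lapMass_pos.ne' lapMass_lt_top.ne

lemma lintegral_lap_shift (a : ℝ) {g : ℝ → ℝ≥0∞} (hg : Measurable g) :
    ∫⁻ z, g (z + a) ∂lap = ∫⁻ x, g x * ENNReal.ofReal (Real.exp (hf a x)) ∂lap := by
  have hm : Measurable fun x => g x * ENNReal.ofReal (Real.exp (hf a x)) := by
    refine hg.mul ?_
    unfold hf; fun_prop
  simp only [lap, lintegral_smul_measure]
  congr 1
  have hm' : Measurable fun z => g (z + a) := hg.comp (by fun_prop)
  rw [lintegral_withDensity_eq_lintegral_mul _ measurable_lapDens hm,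
    lintegral_withDensity_eq_lintegral_mul _ measurable_lapDens hm']
  symm
  rw [← lintegral_add_right_eq_self _ a]
  congr 1
  funext x
  simp only [Pi.mul_apply, lapDens, hf, add_sub_cancel_right]
  rw [mul_comm (g _), ← mul_assoc, ← ENNReal.ofReal_mul (Real.exp_pos _).le, ← Real.exp_add]
  congr 3
  ring

abbrev lapI (ι : Type*) : Measure (ι → ℝ) := Measure.infinitePi fun _ : ι => lap

lemma lintegral_lapI_shift {ι : Type*} [DecidableEq ι] (s : Finset ι) (v : ι → ℝ)
    {g : (ι → ℝ) → ℝ≥0∞} (hg : Measurable g) :
    ∫⁻ z, g (fun j => if j ∈ s then z j + v j else z j) ∂lapI ι =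
      ∫⁻ x, g x * ∏ j ∈ s, ENNReal.ofReal (Real.exp (hf (v j) (x j))) ∂lapI ι := by
  induction s using Finset.induction_on generalizing g with
  | empty => simp
  | insert a s ha ih =>
    have hsh : Measurable fun x : ι → ℝ => Function.update x a (x a + v a) := by
      refine measurable_pi_lambda _ fun j => ?_
      by_cases hj : j = a
      · subst hj; simp only [Function.update_self]; fun_prop
      · simp only [Function.update_of_ne hj]; fun_prop
    have h1 : ∀ z : ι → ℝ, (fun j => if j ∈ insert a s then z j + v j else z j) =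
        (fun x : ι → ℝ => Function.update x a (x a + v a))
          (fun j => if j ∈ s then z j + v j else z j) := by
      intro z
      funext j
      by_cases hj : j = a
      · subst hj; simp [ha]
      · simp [hj]
    have hP : Measurable fun x : ι → ℝ =>
        ∏ j ∈ s, ENNReal.ofReal (Real.exp (hf (v j) (x j))) := by
      refine Finset.measurable_prod _ fun j _ => ?_
      unfold hf; fun_prop
    have hPa : Measurable fun x : ι → ℝ => ENNReal.ofReal (Real.exp (hf (v a) (x a))) := by
      unfold hf; fun_prop
    simp only [h1]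
    rw [ih (g := fun x => g (Function.update x a (x a + v a))) (hg.comp hsh)]
    have hg1 : Measurable fun x : ι → ℝ => g (Function.update x a (x a + v a)) *
        ∏ j ∈ s, ENNReal.ofReal (Real.exp (hf (v j) (x j))) := (hg.comp hsh).mul hP
    rw [lintegral_resample lap a hg1]
    have hg2 : Measurable fun x : ι → ℝ =>
        g x * ∏ j ∈ insert a s, ENNReal.ofReal (Real.exp (hf (v j) (x j))) := by
      simp only [Finset.prod_insert ha]
      exact hg.mul (hPa.mul hP)
    rw [lintegral_resample lap a hg2]
    congr 1
    funext w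
    have hprod : ∀ y : ℝ, ∏ j ∈ s, ENNReal.ofReal (Real.exp (hf (v j) (Function.update w a y j))) =
        ∏ j ∈ s, ENNReal.ofReal (Real.exp (hf (v j) (w j))) := by
      intro y
      refine Finset.prod_congr rfl fun j hj => ?_
      rw [Function.update_of_ne (by rintro rfl; exact ha hj)]
    simp only [Finset.prod_insert ha, hprod, Function.update_self, Function.update_idem,
      Function.comp_apply]
    have := lintegral_lap_shift (v a) (g := fun y => g (Function.update w a y) *
      ∏ j ∈ s, ENNReal.ofReal (Real.exp (hf (v j) (w j))))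
      ((hg.comp (measurable_update w)).mul_const _)
    rw [this]
    congr 1
    funext y
    ring

end

end Crest.Agent.H0254
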