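import Crest.Agent.H0254.Noise

set_option autoImplicit false

namespace Crest.Agent.H0254

open Filter MeasureTheory ENNReal ProbabilityTheory Topology

noncomputable section

def bit (b : Bool) : ℝ := if b then 1 else 0

lemma bit_nonneg (b : Bool) : 0 ≤ bit b := by cases b <;> simp [bit]
lemma bit_le_one (b : Bool) : bit b ≤ 1 := by cases b <;> simp [bit]
lemma bit_mul_self (b : Bool) : bit b * bit b = bit b := by cases b <;> simp [bit]
@[fun_prop] lemma measurable_bit : Measurable bit := measurable_of_countable _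

variable {I : Type*}

def pOf (ν : Measure (I → Bool)) (F : Finset I) : ℝ := ν.real {ω | ∀ j ∈ F, ω j = true}

def Wt (s : Finset I) (h : I → ℝ) (ω : I → Bool) : ℝ := ∏ j ∈ s, Real.exp (h j * bit (ω j))

lemma measurableSet_all (F : Finset I) : MeasurableSet {ω : I → Bool | ∀ j ∈ F, ω j = true} := by
  have : {ω : I → Bool | ∀ j ∈ F, ω j = true} = (F : Set I).pi fun _ => {true} := by
    ext; simp
  rw [this]
  exact MeasurableSet.pi F.countable_toSet fun _ _ => MeasurableSet.of_discrete

lemma prod_bit (F : Finset I) (ω : I → Bool) :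
    ∏ j ∈ F, bit (ω j) = Set.indicator {ω : I → Bool | ∀ j ∈ F, ω j = true} 1 ω := by
  by_cases h : ∀ j ∈ F, ω j = true
  · rw [Set.indicator_of_mem (by exact h)]
    exact Finset.prod_eq_one fun j hj => by simp [bit, h j hj]
  · rw [Set.indicator_of_notMem (by exact h)]
    push Not at h
    obtain ⟨j, hj, hj'⟩ := h
    exact Finset.prod_eq_zero hj (by simp [bit, hj'])

lemma pOf_eq (ν : Measure (I → Bool)) (F : Finset I) :
    pOf ν F = ∫ ω, ∏ j ∈ F, bit (ω j) ∂ν := by
  simp only [prod_bit]
  rw [integral_indicator_one (measurableSet_all F), pOf]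

lemma Wt_pos (s : Finset I) (h : I → ℝ) (ω : I → Bool) : 0 < Wt s h ω :=
  Finset.prod_pos fun _ _ => Real.exp_pos _

lemma Wt_le (s : Finset I) (h : I → ℝ) (ω : I → Bool) : Wt s h ω ≤ ∏ j ∈ s, Real.exp |h j| := by
  refine Finset.prod_le_prod (fun _ _ => (Real.exp_pos _).le) fun j _ => Real.exp_le_exp.2 ?_
  cases ω j
  · simp [bit]
  · simp [bit, le_abs_self]

lemma measurable_Wt (s : Finset I) (h : I → ℝ) : Measurable (Wt s h) := by
  unfold Wt
  refine Finset.measurable_prod _ fun j _ => ?_
  fun_prop

lemma Wt_expand (s : Finset I) (h : I → ℝ) (ω : I → Bool) :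
    Wt s h ω = ∑ F ∈ s.powerset, (∏ j ∈ F, (Real.exp (h j) - 1)) * ∏ j ∈ F, bit (ω j) := by
  have : ∀ j, Real.exp (h j * bit (ω j)) = 1 + (Real.exp (h j) - 1) * bit (ω j) := by
    intro j
    cases ω j <;> simp [bit]
  simp only [Wt, this, Finset.prod_one_add, Finset.prod_mul_distrib]

variable (ν : Measure (I → Bool)) [IsProbabilityMeasure ν]

lemma integrable_prod_bit (F : Finset I) : Integrable (fun ω => ∏ j ∈ F, bit (ω j)) ν := by
  simp only [prod_bit]
  exact (integrable_const (1 : ℝ)).indicator (measurableSet_all F)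

lemma integrable_Wt (s : Finset I) (h : I → ℝ) : Integrable (Wt s h) ν :=
  Integrable.of_bound (measurable_Wt s h).aestronglyMeasurable _
    (Eventually.of_forall fun ω => by
      rw [Real.norm_eq_abs, abs_of_pos (Wt_pos s h ω)]; exact Wt_le s h ω)

lemma integrable_bit_Wt (s : Finset I) (h : I → ℝ) (i : I) :
    Integrable (fun ω => bit (ω i) * Wt s h ω) ν :=
  (integrable_Wt ν s h).bdd_mul (c := 1)
    (measurable_bit.comp (measurable_pi_apply i)).aestronglyMeasurable
    (Eventually.of_forall fun ω => by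
      rw [Real.norm_eq_abs, abs_of_nonneg (bit_nonneg _)]; exact bit_le_one _)

lemma Zp_eq (s : Finset I) (h : I → ℝ) : Zp (pOf ν) s h = ∫ ω, Wt s h ω ∂ν := by
  simp only [Wt_expand, Zp, pOf_eq]
  rw [integral_finsetSum _ fun F _ => (integrable_prod_bit ν F).const_mul _]
  simp only [integral_const_mul]

variable [DecidableEq I]

lemma Np_eq (s : Finset I) (h : I → ℝ) (i : I) :
    Zp (fun F => pOf ν (insert i F)) s h = ∫ ω, bit (ω i) * Wt s h ω ∂ν := by
  have : ∀ (F : Finset I) (ω : I → Bool),
      bit (ω i) * ∏ j ∈ F, bit (ω j) = ∏ j ∈ insert i F, bit (ω j) := by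
    intro F ω
    by_cases hi : i ∈ F
    · rw [Finset.insert_eq_of_mem hi, ← Finset.mul_prod_erase F _ hi, ← mul_assoc, bit_mul_self]
    · rw [Finset.prod_insert hi]
  simp only [Wt_expand, Zp, pOf_eq, Finset.mul_sum, mul_left_comm (bit _), this]
  rw [integral_finsetSum _ fun F _ => (integrable_prod_bit ν _).const_mul _]
  simp only [integral_const_mul]

omit [DecidableEq I] in
lemma Zp_pos (s : Finset I) (h : I → ℝ) : 0 < Zp (pOf ν) s h := by
  rw [Zp_eq, integral_pos_iff_support_of_nonneg (fun ω => (Wt_pos s h ω).le) (integrable_Wt ν s h)]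
  have : Function.support (Wt s h) = Set.univ := by
    ext ω; simp [(Wt_pos s h ω).ne']
  simp [this]

lemma mean_mem (s : Finset I) (i : I) (h : I → ℝ) : mean (pOf ν) s i h ∈ Set.Icc (0 : ℝ) 1 := by
  unfold mean
  have hZ := Zp_pos ν s h
  constructor
  · refine div_nonneg ?_ hZ.le
    rw [Np_eq]
    exact integral_nonneg fun ω => mul_nonneg (bit_nonneg _) (Wt_pos s h ω).le
  · rw [div_le_one hZ, Np_eq, Zp_eq]
    refine integral_mono (integrable_bit_Wt ν s h i) (integrable_Wt ν s h) fun ω => ?_
    exact mul_le_of_le_one_left (Wt_pos s h ω).le (bit_le_one _)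

/-- the noisy observation. -/
def Xt (t : ℝ) (w : (I → Bool) × (I → ℝ)) : I → ℝ := fun i => w.2 i + t * bit (w.1 i)

omit [DecidableEq I] in
@[fun_prop] lemma measurable_Xt (t : ℝ) : Measurable (Xt (I := I) t) := by
  unfold Xt; fun_prop

abbrev P0 : Measure ((I → Bool) × (I → ℝ)) := ν.prod (lapI I)

def muT (t : ℝ) : Measure (I → ℝ) := (P0 ν).map (Xt t)

instance (t : ℝ) : IsProbabilityMeasure (muT ν t) :=
  Measure.isProbabilityMeasure_map (measurable_Xt t).aemeasurable

lemma bayes (t : ℝ) (s : Finset I) {g : (I → ℝ) → ℝ≥0∞} (hg : Measurable g)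
    (hdep : ∀ x x', (∀ j ∈ s, x j = x' j) → g x = g x') {φ : (I → Bool) → ℝ}
    (hφ : Measurable φ) (hφ0 : ∀ ω, 0 ≤ φ ω) (hφ1 : ∀ ω, φ ω ≤ 1) :
    ∫⁻ w, g (Xt t w) * ENNReal.ofReal (φ w.1) ∂P0 ν =
      ∫⁻ x, g x * ENNReal.ofReal (∫ ω, φ ω * Wt s (fun j => hf t (x j)) ω ∂ν) ∂lapI I := by
  rw [lintegral_prod _ (by fun_prop)]
  have h1 : ∀ ω : I → Bool, ∫⁻ z, g (Xt t (ω, z)) * ENNReal.ofReal (φ ω) ∂lapI I =
      ∫⁻ x, g x * ENNReal.ofReal (φ ω * Wt s (fun j => hf t (x j)) ω) ∂lapI I := by
    intro ω
    have := lintegral_lapI_shift s (fun j => t * bit (ω j))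
      (g := fun x => g x * ENNReal.ofReal (φ ω)) (hg.mul_const _)
    calc _ = ∫⁻ z, g (fun j => if j ∈ s then z j + t * bit (ω j) else z j) *
          ENNReal.ofReal (φ ω) ∂lapI I := by
          congr 1; funext z; congr 1
          exact hdep _ _ fun j hj => by simp [Xt, hj]
      _ = _ := this
      _ = _ := by
          congr 1; funext x
          rw [ENNReal.ofReal_mul (hφ0 ω), mul_assoc, Wt,
            ENNReal.ofReal_prod_of_nonneg fun _ _ => (Real.exp_pos _).le]
          congr 2
          refine Finset.prod_congr rfl fun j _ => ?_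
          cases ω j <;> simp [bit, hf]
  simp only [h1]
  have hW : Measurable fun q : (I → Bool) × (I → ℝ) => Wt s (fun j => hf t (q.2 j)) q.1 := by
    unfold Wt hf
    refine Finset.measurable_prod _ fun j _ => ?_
    fun_prop
  rw [lintegral_lintegral_swap]
  · congr 1; funext x
    rw [lintegral_const_mul _ (by
      exact ((hφ.mul (measurable_Wt s _))).ennreal_ofReal), ofReal_integral_eq_lintegral_ofReal]
    · exact (integrable_Wt ν s _).bdd_mul (c := 1) hφ.aestronglyMeasurable
        (Eventually.of_forall fun ω => by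
          rw [Real.norm_eq_abs, abs_of_nonneg (hφ0 _)]; exact hφ1 _)
    · exact Eventually.of_forall fun ω => mul_nonneg (hφ0 _) (Wt_pos _ _ _).le
  · exact ((hg.comp measurable_snd).mul
      ((hφ.comp measurable_fst).mul hW).ennreal_ofReal).aemeasurable

lemma measurable_mean (p : Finset I → ℝ) (s : Finset I) (i : I) :
    Measurable (mean p s i) := by
  unfold mean
  exact (measurable_Zp_fixed (p := fun _ F => p (insert i F)) (fun _ => measurable_const) s
    (h := fun h => h) fun j => measurable_pi_apply j).div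
    (measurable_Zp_fixed (p := fun _ => p) (fun _ => measurable_const) s
    (h := fun h => h) fun j => measurable_pi_apply j)

omit [DecidableEq I] in
lemma Zp_congr (p : Finset I → ℝ) (s : Finset I) {h h' : I → ℝ} (hh : ∀ j ∈ s, h j = h' j) :
    Zp p s h = Zp p s h' := by
  unfold Zp
  refine Finset.sum_congr rfl fun F hF => ?_
  congr 1
  refine Finset.prod_congr rfl fun j hj => ?_
  rw [hh j (Finset.mem_powerset.1 hF hj)]

lemma mean_congr (p : Finset I → ℝ) (s : Finset I) (i : I) {h h' : I → ℝ}
    (hh : ∀ j ∈ s, h j = h' j) : mean p s i h = mean p s i h' := by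
  unfold mean
  rw [Zp_congr p s hh, Zp_congr _ s hh]

/-- finite-volume Bayes formula. -/
lemma bayes_mean (t : ℝ) (s : Finset I) (i : I) {A : Set (I → ℝ)} (hA : MeasurableSet A)
    (hdep : ∀ x x', (∀ j ∈ s, x j = x' j) → (x ∈ A ↔ x' ∈ A)) :
    ∫⁻ x in A, ENNReal.ofReal (mean (pOf ν) s i (fun j => hf t (x j))) ∂muT ν t =
      ∫⁻ w, A.indicator 1 (Xt t w) * ENNReal.ofReal (bit (w.1 i)) ∂P0 ν := by
  have hm : Measurable fun x : I → ℝ => ENNReal.ofReal (mean (pOf ν) s i (fun j => hf t (x j))) := by
    refine ((measurable_mean _ s i).comp ?_).ennreal_ofReal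
    unfold hf; fun_prop
  have hind : ∀ x x', (∀ j ∈ s, x j = x' j) →
      A.indicator (1 : (I → ℝ) → ℝ≥0∞) x = A.indicator 1 x' := by
    intro x x' hx
    by_cases h : x ∈ A
    · rw [Set.indicator_of_mem h, Set.indicator_of_mem ((hdep x x' hx).1 h)]; rfl
    · rw [Set.indicator_of_notMem h, Set.indicator_of_notMem (fun h' => h ((hdep x x' hx).2 h'))]
  rw [bayes ν t s (measurable_one.indicator hA) hind (φ := fun ω => bit (ω i)) (by fun_prop)
    (fun _ => bit_nonneg _) (fun _ => bit_le_one _), ← lintegral_indicator hA, muT,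
    lintegral_map (hm.indicator hA) (measurable_Xt t)]
  have := bayes ν t s (hm.indicator hA) (φ := fun _ => 1) ?_ measurable_const
    (fun _ => zero_le_one) (fun _ => le_rfl)
  · simp only [ENNReal.ofReal_one, mul_one, one_mul] at this
    rw [this]
    congr 1; funext x
    by_cases h : x ∈ A
    · rw [Set.indicator_of_mem h, Set.indicator_of_mem h, ← Np_eq, ← Zp_eq,
        ← ENNReal.ofReal_mul (mean_mem ν _ _ _).1, mean, div_mul_cancel₀ _ (Zp_pos ν _ _).ne']
      simp
    · simp [Set.indicator_of_notMem h]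
  · intro x x' hx
    by_cases h : x ∈ A
    · rw [Set.indicator_of_mem h, Set.indicator_of_mem ((hdep x x' hx).1 h),
        mean_congr _ s i (h' := fun j => hf t (x' j)) fun j hj => by rw [hx j hj]]
    · rw [Set.indicator_of_notMem h, Set.indicator_of_notMem (fun h' => h ((hdep x x' hx).2 h'))]

variable [Countable I]

theorem exists_resampler (Λ : I → ℕ → Finset I) (hmono : ∀ i, Monotone (Λ i))
    (hex : ∀ i j, ∃ n, j ∈ Λ i n) (t : ℝ) :
    ∃ R : (I → ℝ) → unitInterval → (I → Bool), Measurable (Function.uncurry R) ∧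
      ((muT ν t).prod volume).map (fun q => (q.1, R q.1 q.2)) =
        (P0 ν).map (fun w => (Xt t w, w.1)) ∧
      ∀ i, ∀ᵐ x ∂muT ν t, ∫ u, bit (R x u i) = drift (pOf ν) Λ i (fun j => hf t (x j)) := by
  set κ := condDistrib Prod.fst (Xt t) (P0 ν) with hκ
  have hdis : muT ν t ⊗ₘ κ = (P0 ν).map (fun w => (Xt t w, w.1)) :=
    compProd_map_condDistrib measurable_fst.aemeasurable
  obtain ⟨R, hR, hRκ⟩ := κ.exists_measurable_map_eq_unitInterval
  have hRx : ∀ x, Measurable (R x) := fun x => hR.of_uncurry_left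
  have hq : Measurable (fun q : (I → ℝ) × unitInterval => (q.1, R q.1 q.2)) :=
    measurable_fst.prodMk hR
  have hlaw : ((muT ν t).prod volume).map (fun q => (q.1, R q.1 q.2)) =
      (P0 ν).map (fun w => (Xt t w, w.1)) := by
    rw [← hdis]
    ext A hA
    rw [Measure.map_apply hq hA, Measure.prod_apply (hq hA), Measure.compProd_apply hA]
    congr 1; funext x
    rw [← hRκ x, Measure.map_apply (hRx x) (measurable_prodMk_left hA)]
    rfl
  refine ⟨R, hR, hlaw, fun i => ?_⟩
  set G : (I → ℝ) → ℝ := fun x => ∫ u, bit (R x u i) with hG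
  have hbR : Measurable fun q : (I → ℝ) × unitInterval => bit (R q.1 q.2 i) :=
    measurable_bit.comp ((measurable_pi_apply i).comp hR)
  have hGm : Measurable G := hbR.stronglyMeasurable.integral_prod_right'.measurable
  have hbint : ∀ x, Integrable (fun u => bit (R x u i)) volume := fun x =>
    Integrable.of_bound (measurable_bit.comp ((measurable_pi_apply i).comp
      (hRx x))).aestronglyMeasurable 1 (Eventually.of_forall fun u => by
        rw [Real.norm_eq_abs, abs_of_nonneg (bit_nonneg _)]; exact bit_le_one _)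
  have hG0 : ∀ x, 0 ≤ G x := fun x => integral_nonneg fun u => bit_nonneg _
  have hG1 : ∀ x, G x ≤ 1 := fun x => by
    have := integral_mono (hbint x) (integrable_const (1 : ℝ)) fun u => bit_le_one _
    simpa using this
  have hGint : Integrable G (muT ν t) := Integrable.of_bound hGm.aestronglyMeasurable 1
    (Eventually.of_forall fun x => by rw [Real.norm_eq_abs, abs_of_nonneg (hG0 _)]; exact hG1 _)
  let ℱ : Filtration ℕ (MeasurableSpace.pi : MeasurableSpace (I → ℝ)) :=
    { seq := fun n => MeasurableSpace.pi.comap (Finset.restrict (Λ i n))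
      mono' := by
        intro m n hmn
        have : (Finset.restrict (Λ i m) : (I → ℝ) → _) =
            Finset.restrict₂ (π := fun _ => ℝ) (hmono i hmn) ∘ Finset.restrict (Λ i n) := rfl
        simp only
        rw [this, ← MeasurableSpace.comap_comp]
        exact MeasurableSpace.comap_mono (Finset.measurable_restrict₂ _).comap_le
      le' := fun n => (Finset.measurable_restrict _).comap_le }
  have hsup : (MeasurableSpace.pi : MeasurableSpace (I → ℝ)) ≤ ⨆ n, ℱ n := by
    refine iSup_le fun j => ?_
    obtain ⟨n, hn⟩ := hex i j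
    refine le_trans ?_ (le_iSup _ n)
    have : (fun b : I → ℝ => b j) =
        (fun y : Λ i n → ℝ => y ⟨j, hn⟩) ∘ Finset.restrict (Λ i n) := rfl
    rw [this, ← MeasurableSpace.comap_comp]
    exact MeasurableSpace.comap_mono (measurable_pi_apply _).comap_le
  have hconv := hGint.tendsto_ae_condExp (ℱ := ℱ) (hGm.mono hsup le_rfl).stronglyMeasurable
  have hcond : ∀ n, (fun x => mean (pOf ν) (Λ i n) i (fun j => hf t (x j))) =ᵐ[muT ν t]
      (muT ν t)[G | ℱ n] := by
    intro n
    have hm : Measurable fun x : I → ℝ => mean (pOf ν) (Λ i n) i (fun j => hf t (x j)) := by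
      refine (measurable_mean _ _ i).comp ?_
      unfold hf; fun_prop
    have hmint : Integrable (fun x : I → ℝ => mean (pOf ν) (Λ i n) i (fun j => hf t (x j)))
        (muT ν t) := Integrable.of_bound hm.aestronglyMeasurable 1
      (Eventually.of_forall fun x => by
        rw [Real.norm_eq_abs, abs_of_nonneg (mean_mem ν _ _ _).1]; exact (mean_mem ν _ _ _).2)
    refine ae_eq_condExp_of_forall_setIntegral_eq (ℱ.le n) hGint
      (fun s _ _ => hmint.integrableOn) (fun A hA _ => ?_) ?_
    · have hA' : MeasurableSet A := ℱ.le n A hA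
      obtain ⟨B, hB, rfl⟩ := hA
      rw [integral_eq_lintegral_of_nonneg_ae (Eventually.of_forall fun x => (mean_mem ν _ _ _).1)
        hm.aestronglyMeasurable, integral_eq_lintegral_of_nonneg_ae
        (Eventually.of_forall hG0) hGm.aestronglyMeasurable]
      congr 1
      rw [bayes_mean ν t (Λ i n) i hA' ?_]
      · have hf1 : Measurable fun q : (I → ℝ) × (I → Bool) =>
            ((Finset.restrict (Λ i n)) ⁻¹' B).indicator (1 : (I → ℝ) → ℝ≥0∞) q.1 *
              ENNReal.ofReal (bit (q.2 i)) :=
          ((measurable_one.indicator hA').comp measurable_fst).mul (by fun_prop)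
        have hf2 : Measurable fun q : (I → ℝ) × unitInterval =>
            ((Finset.restrict (Λ i n)) ⁻¹' B).indicator (1 : (I → ℝ) → ℝ≥0∞) q.1 *
              ENNReal.ofReal (bit (R q.1 q.2 i)) := hf1.comp hq
        have h2 := lintegral_map (μ := P0 ν) (g := fun w => (Xt t w, w.1)) hf1 (by fun_prop)
        rw [← h2, ← hlaw, lintegral_map hf1 hq,
          lintegral_prod _ hf2.aemeasurable, ← lintegral_indicator hA']
        congr 1; funext x
        by_cases hx : x ∈ (Finset.restrict (Λ i n)) ⁻¹' B
        · simp only [Set.indicator_of_mem hx, Pi.one_apply, one_mul, hG]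
          rw [ofReal_integral_eq_lintegral_ofReal (hbint x)
            (Eventually.of_forall fun u => bit_nonneg _)]
        · simp [Set.indicator_of_notMem hx]
      · intro x x' hx
        have : Finset.restrict (Λ i n) x = Finset.restrict (Λ i n) x' :=
          funext fun j => hx j j.2
        simp only [Set.mem_preimage, this]
    · have : (fun x : I → ℝ => mean (pOf ν) (Λ i n) i (fun j => hf t (x j))) =
          (fun y : Λ i n → ℝ => mean (pOf ν) (Λ i n) i
            (fun j => if hj : j ∈ Λ i n then hf t (y ⟨j, hj⟩) else 0)) ∘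
            Finset.restrict (Λ i n) := by
        funext x
        exact mean_congr _ _ _ fun j hj => by simp [hj]
      rw [this]
      refine (Measurable.stronglyMeasurable ?_).aestronglyMeasurable
      refine Measurable.comp ?_ (comap_measurable _)
      refine (measurable_mean _ _ i).comp (measurable_pi_lambda _ fun j => ?_)
      by_cases hj : j ∈ Λ i n
      · simp only [hj, dite_true]
        unfold hf; fun_prop
      · simp only [hj, dite_false]
        exact measurable_const
  filter_upwards [hconv, ae_all_iff.2 hcond] with x hx hx'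
  simp only [← hx'] at hx
  exact hx.limsup_eq.symm

end

end Crest.Agent.H0254
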