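import Mathlib

set_option autoImplicit false

namespace Crest.Agent.H0254

open Filter Topology Complex

noncomputable section

variable {ι : Type*} [DecidableEq ι]

/-- weighted count of a family of finite sets. -/
def Wf {R : Type*} [CommSemiring R] (𝒯 : Finset (Finset ι)) (z : ι → R) : R :=
  ∑ T ∈ 𝒯, ∏ e ∈ T, z e

omit [DecidableEq ι] in
lemma Wf_nonneg (𝒯 : Finset (Finset ι)) {x : ι → ℝ} (hx : ∀ e, 0 < x e) : 0 ≤ Wf 𝒯 x :=
  Finset.sum_nonneg fun _ _ => Finset.prod_nonneg fun e _ => (hx e).le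

lemma Wf_scale {R : Type*} [CommSemiring R] (𝒯 : Finset (Finset ι)) (z : ι → R) (g : ι) (t : R) :
    Wf 𝒯 (fun e => z e * if e = g then t else 1) =
      Wf (𝒯.filter (g ∉ ·)) z + t * Wf (𝒯.filter (g ∈ ·)) z := by
  unfold Wf
  rw [Finset.sum_filter, Finset.sum_filter, Finset.mul_sum, ← Finset.sum_add_distrib]
  refine Finset.sum_congr rfl fun T _ => ?_
  rw [Finset.prod_mul_distrib, Finset.prod_ite_eq']
  by_cases h : g ∈ T <;> simp [h, mul_comm]

/-- the Rayleigh inequality at all positive weights -/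
def Ray (𝒯 : Finset (Finset ι)) : Prop :=
  ∀ x : ι → ℝ, (∀ e, 0 < x e) → ∀ e f : ι, e ≠ f →
    Wf ((𝒯.filter (e ∈ ·)).filter (f ∈ ·)) x * Wf ((𝒯.filter (e ∉ ·)).filter (f ∉ ·)) x ≤
      Wf ((𝒯.filter (e ∈ ·)).filter (f ∉ ·)) x * Wf ((𝒯.filter (e ∉ ·)).filter (f ∈ ·)) x

omit [DecidableEq ι] in
lemma Wf_ofReal (𝒯 : Finset (Finset ι)) (x : ι → ℝ) :
    Wf 𝒯 (fun e => (x e : ℂ)) = ((Wf 𝒯 x : ℝ) : ℂ) := by
  simp [Wf]

lemma ray_of_stable {𝒯 : Finset (Finset ι)}
    (hst : ∀ z : ι → ℂ, (∀ e, 0 < (z e).im) → Wf 𝒯 z ≠ 0) : Ray 𝒯 := by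
  intro x hx e f hef
  by_contra hcon
  push Not at hcon
  set z : ℝ → ι → ℂ := fun ε g => if g = e ∨ g = f then (x g : ℂ) else x g + ε * I with hz
  have hz0 : z 0 = fun g => (x g : ℂ) := by funext g; simp [hz]
  have hcont : ∀ 𝒜 : Finset (Finset ι), Tendsto (fun ε => Wf 𝒜 (z ε)) (𝓝[>] 0)
      (𝓝 ((Wf 𝒜 x : ℝ) : ℂ)) := by
    intro 𝒜
    rw [← Wf_ofReal, ← hz0]
    refine (Continuous.tendsto ?_ 0).mono_left nhdsWithin_le_nhds
    unfold Wf
    refine continuous_finsetSum _ fun T _ => continuous_finsetProd _ fun g _ => ?_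
    simp only [hz]
    split_ifs <;> fun_prop
  set d := Wf ((𝒯.filter (e ∈ ·)).filter (f ∈ ·)) x with hd
  set a := Wf ((𝒯.filter (e ∉ ·)).filter (f ∉ ·)) x with ha
  set b := Wf ((𝒯.filter (e ∈ ·)).filter (f ∉ ·)) x with hb
  set c := Wf ((𝒯.filter (e ∉ ·)).filter (f ∈ ·)) x with hc
  have hb0 : 0 ≤ b := Wf_nonneg _ hx
  have hc0 : 0 ≤ c := Wf_nonneg _ hx
  have hd0 : 0 < d := by
    have : 0 ≤ d := Wf_nonneg _ hx
    rcases this.eq_or_lt with h | h
    · rw [← h] at hcon; nlinarith [mul_nonneg hb0 hc0]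
    · exact h
  have hden : (b : ℂ) + I * d ≠ 0 := by
    intro h
    have := congrArg Complex.im h
    simp at this
    linarith
  have hnum := (hcont ((𝒯.filter (e ∉ ·)).filter (f ∉ ·))).add
    ((hcont ((𝒯.filter (e ∉ ·)).filter (f ∈ ·))).const_mul I)
  have hden' := (hcont ((𝒯.filter (e ∈ ·)).filter (f ∉ ·))).add
    ((hcont ((𝒯.filter (e ∈ ·)).filter (f ∈ ·))).const_mul I)
  have hs := (hnum.div hden' hden).neg
  have him : 0 < (-(((a : ℂ) + I * c) / ((b : ℂ) + I * d))).im := by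
    have hn : 0 < normSq ((b : ℂ) + I * d) := normSq_pos.2 hden
    rw [neg_im, div_im]
    simp only [add_im, ofReal_im, mul_im, I_re, mul_zero, I_im, ofReal_re, one_mul, zero_add,
      add_re, mul_re, zero_mul, sub_self, add_zero]
    rw [← sub_div, ← neg_div]
    exact div_pos (by nlinarith) hn
  have e1 := ((continuous_im.tendsto _).comp hs).eventually (lt_mem_nhds him)
  have e2 := hden'.eventually_ne hden
  obtain ⟨ε, ⟨h1, h2⟩, hε⟩ := ((e1.and e2).and self_mem_nhdsWithin).exists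
  simp only [Function.comp_apply, Pi.div_apply] at h1 h2
  set s := -((Wf ((𝒯.filter (e ∉ ·)).filter (f ∉ ·)) (z ε) +
      I * Wf ((𝒯.filter (e ∉ ·)).filter (f ∈ ·)) (z ε)) /
      (Wf ((𝒯.filter (e ∈ ·)).filter (f ∉ ·)) (z ε) +
      I * Wf ((𝒯.filter (e ∈ ·)).filter (f ∈ ·)) (z ε))) with hs'
  refine hst (fun g => (z ε g * if g = f then I else 1) * if g = e then s else 1) (fun g => ?_) ?_
  · by_cases h : g = e
    · subst h
      simp only [hz, true_or, if_true, hef, if_false, mul_one, mul_im, ofReal_re, ofReal_im,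
        zero_mul, add_zero]
      exact mul_pos (hx _) h1
    · by_cases h' : g = f
      · subst h'
        simp [hz, h, hx]
      · have : 0 < ε := hε
        simpa [hz, h, h'] using this
  · rw [Wf_scale, Wf_scale, Wf_scale, hs']
    field_simp
    ring

lemma quad_limit {a0 a1 b0 b1 c0 c1 d0 d1 : ℝ}
    (h : ∀ t : ℝ, 0 < t → (d0 + t * d1) * (a0 + t * a1) ≤ (b0 + t * b1) * (c0 + t * c1)) :
    d0 * a0 ≤ b0 * c0 := by
  have h1 : Tendsto (fun t : ℝ => (d0 + t * d1) * (a0 + t * a1)) (𝓝[>] 0) (𝓝 (d0 * a0)) := by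
    have : Continuous fun t : ℝ => (d0 + t * d1) * (a0 + t * a1) := by fun_prop
    simpa using (this.tendsto 0).mono_left nhdsWithin_le_nhds
  have h2 : Tendsto (fun t : ℝ => (b0 + t * b1) * (c0 + t * c1)) (𝓝[>] 0) (𝓝 (b0 * c0)) := by
    have : Continuous fun t : ℝ => (b0 + t * b1) * (c0 + t * c1) := by fun_prop
    simpa using (this.tendsto 0).mono_left nhdsWithin_le_nhds
  exact le_of_tendsto_of_tendsto h1 h2 (eventually_nhdsWithin_of_forall h)

lemma Ray.both {𝒯 : Finset (Finset ι)} (h : Ray 𝒯) (g : ι) :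
    Ray (𝒯.filter (g ∉ ·)) ∧ Ray (𝒯.filter (g ∈ ·)) := by
  have key : ∀ x : ι → ℝ, (∀ e, 0 < x e) → ∀ e f : ι, e ≠ f → ∀ t : ℝ, 0 < t → _ :=
    fun x hx e f hef t ht => h (fun e => x e * if e = g then t else 1)
      (fun e => mul_pos (hx e) (by split_ifs <;> positivity)) e f hef
  simp only [Wf_scale] at key
  have c1 : ∀ (P Q : Finset ι → Prop) [DecidablePred P] [DecidablePred Q],
      ((𝒯.filter (g ∉ ·)).filter P).filter Q = ((𝒯.filter P).filter Q).filter (g ∉ ·) := by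
    intro P Q _ _; ext; simp only [Finset.mem_filter]; tauto
  have c2 : ∀ (P Q : Finset ι → Prop) [DecidablePred P] [DecidablePred Q],
      ((𝒯.filter (g ∈ ·)).filter P).filter Q = ((𝒯.filter P).filter Q).filter (g ∈ ·) := by
    intro P Q _ _; ext; simp only [Finset.mem_filter]; tauto
  constructor
  · intro x hx e f hef
    simp only [c1]
    exact quad_limit (key x hx e f hef)
  · intro x hx e f hef
    simp only [c2]
    refine quad_limit (d1 := Wf (((𝒯.filter (e ∈ ·)).filter (f ∈ ·)).filter (g ∉ ·)) x)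
      (a1 := Wf (((𝒯.filter (e ∉ ·)).filter (f ∉ ·)).filter (g ∉ ·)) x)
      (b1 := Wf (((𝒯.filter (e ∈ ·)).filter (f ∉ ·)).filter (g ∉ ·)) x)
      (c1 := Wf (((𝒯.filter (e ∉ ·)).filter (f ∈ ·)).filter (g ∉ ·)) x) fun t ht => ?_
    have := mul_le_mul_of_nonneg_left (key x hx e f hef t⁻¹ (inv_pos.2 ht)) (sq_nonneg t)
    have e1 : ∀ u0 u1 v0 v1 : ℝ, t ^ 2 * ((u0 + t⁻¹ * u1) * (v0 + t⁻¹ * v1)) =
        (u1 + t * u0) * (v1 + t * v0) := by
      intro u0 u1 v0 v1; field_simp; ring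
    rwa [e1, e1] at this

lemma Ray.contract {𝒯 : Finset (Finset ι)} (h : Ray 𝒯) (F : Finset ι) :
    Ray (𝒯.filter (F ⊆ ·)) := by
  induction F using Finset.induction_on with
  | empty => simpa using h
  | insert f F _ ih =>
    have := (ih.both f).2
    convert this using 1
    ext; simp only [Finset.mem_filter, Finset.insert_subset_iff]; tauto

lemma Ray.delete {𝒯 : Finset (Finset ι)} (h : Ray 𝒯) (D : Finset ι) :
    Ray (𝒯.filter (Disjoint D ·)) := by
  induction D using Finset.induction_on with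
  | empty => simpa using h
  | insert f D _ ih =>
    have := (ih.both f).1
    convert this using 1
    ext; simp only [Finset.mem_filter, Finset.disjoint_insert_left]; tauto

lemma Ray.card {𝒯 : Finset (Finset ι)} (h : Ray 𝒯) {e f : ι} (hef : e ≠ f) :
    ((𝒯.filter (e ∈ ·)).filter (f ∈ ·)).card * ((𝒯.filter (e ∉ ·)).filter (f ∉ ·)).card ≤
      ((𝒯.filter (e ∈ ·)).filter (f ∉ ·)).card * ((𝒯.filter (e ∉ ·)).filter (f ∈ ·)).card := by
  have := h (fun _ => 1) (fun _ => one_pos) e f hef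
  simp only [Wf, Finset.prod_const_one, Finset.sum_const, nsmul_eq_mul, mul_one] at this
  exact_mod_cast this

lemma Ray.single {𝒯 : Finset (Finset ι)} (h : Ray 𝒯) (F : Finset ι) {e : ι} (he : e ∉ F) :
    ((𝒯.filter (F ⊆ ·)).filter (e ∈ ·)).card * (𝒯.filter (e ∉ ·)).card ≤
      (𝒯.filter (e ∈ ·)).card * ((𝒯.filter (F ⊆ ·)).filter (e ∉ ·)).card := by
  induction F using Finset.induction_on with
  | empty => simp
  | insert f F hf ih =>
    have hef : e ≠ f := fun h => he (h ▸ Finset.mem_insert_self _ _)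
    have ih := ih fun h => he (Finset.mem_insert_of_mem h)
    have r := (h.contract F).card hef
    have c1 : (𝒯.filter (insert f F ⊆ ·)).filter (e ∈ ·) =
        ((𝒯.filter (F ⊆ ·)).filter (e ∈ ·)).filter (f ∈ ·) := by
      ext; simp only [Finset.mem_filter, Finset.insert_subset_iff]; tauto
    have c2 : (𝒯.filter (insert f F ⊆ ·)).filter (e ∉ ·) =
        ((𝒯.filter (F ⊆ ·)).filter (e ∉ ·)).filter (f ∈ ·) := by
      ext; simp only [Finset.mem_filter, Finset.insert_subset_iff]; tauto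
    rw [c1, c2]
    have s1 := Finset.card_filter_add_card_filter_not (s := (𝒯.filter (F ⊆ ·)).filter (e ∈ ·))
      (f ∈ ·)
    have s2 := Finset.card_filter_add_card_filter_not (s := (𝒯.filter (F ⊆ ·)).filter (e ∉ ·))
      (f ∈ ·)
    rw [← s1, ← s2] at ih
    generalize (((𝒯.filter (F ⊆ ·)).filter (e ∈ ·)).filter (f ∈ ·)).card = d at *
    generalize (((𝒯.filter (F ⊆ ·)).filter (e ∉ ·)).filter (f ∉ ·)).card = a at *
    generalize (((𝒯.filter (F ⊆ ·)).filter (e ∈ ·)).filter (f ∉ ·)).card = b at *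
    generalize (((𝒯.filter (F ⊆ ·)).filter (e ∉ ·)).filter (f ∈ ·)).card = c at *
    generalize (𝒯.filter (e ∉ ·)).card = N0 at *
    generalize (𝒯.filter (e ∈ ·)).card = N1 at *
    rcases Nat.eq_zero_or_pos (c + a) with h0 | h0
    · rw [h0] at ih
      have : d * N0 = 0 := by nlinarith [Nat.zero_le (b * N0), Nat.zero_le (d * N0)]
      rw [this]; exact Nat.zero_le _
    · refine Nat.le_of_mul_le_mul_right ?_ h0
      calc d * N0 * (c + a) = (d * c + d * a) * N0 := by ring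
        _ ≤ (d * c + b * c) * N0 := by gcongr
        _ = ((d + b) * N0) * c := by ring
        _ ≤ (N1 * (c + a)) * c := by gcongr
        _ = _ := by ring

theorem Ray.neg_corr {𝒯 : Finset (Finset ι)} (h : Ray 𝒯) (F D : Finset ι) (hFD : Disjoint D F) :
    (𝒯.filter (F ⊆ ·)).card * (𝒯.filter (Disjoint D ·)).card ≤
      𝒯.card * ((𝒯.filter (Disjoint D ·)).filter (F ⊆ ·)).card := by
  induction D using Finset.induction_on with
  | empty => simp [mul_comm]
  | insert e D he ih =>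
    rw [Finset.disjoint_insert_left] at hFD
    have ih := ih hFD.2
    have r := (h.delete D).single F hFD.1
    have c1 : 𝒯.filter (Disjoint (insert e D) ·) = (𝒯.filter (Disjoint D ·)).filter (e ∉ ·) := by
      ext; simp only [Finset.mem_filter, Finset.disjoint_insert_left]; tauto
    rw [c1, Finset.filter_comm (e ∉ ·) (F ⊆ ·)]
    have s1 := Finset.card_filter_add_card_filter_not (s := 𝒯.filter (Disjoint D ·)) (e ∈ ·)
    have s2 := Finset.card_filter_add_card_filter_not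
      (s := (𝒯.filter (Disjoint D ·)).filter (F ⊆ ·)) (e ∈ ·)
    rw [← s1, ← s2] at ih
    generalize (((𝒯.filter (Disjoint D ·)).filter (F ⊆ ·)).filter (e ∈ ·)).card = d at *
    generalize (((𝒯.filter (Disjoint D ·)).filter (F ⊆ ·)).filter (e ∉ ·)).card = c at *
    generalize ((𝒯.filter (Disjoint D ·)).filter (e ∉ ·)).card = N0 at *
    generalize ((𝒯.filter (Disjoint D ·)).filter (e ∈ ·)).card = N1 at *
    generalize (𝒯.filter (F ⊆ ·)).card = M at *
    generalize 𝒯.card = N at *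
    rcases Nat.eq_zero_or_pos (N1 + N0) with h0 | h0
    · have : N0 = 0 := by omega
      rw [this]; exact Nat.zero_le _
    · refine Nat.le_of_mul_le_mul_right ?_ h0
      calc M * N0 * (N1 + N0) = (M * (N1 + N0)) * N0 := by ring
        _ ≤ (N * (d + c)) * N0 := by gcongr
        _ = N * (d * N0 + c * N0) := by ring
        _ ≤ N * (N1 * c + c * N0) := by gcongr
        _ = _ := by ring

end

end Crest.Agent.H0254
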