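import Mathlib

set_option autoImplicit false

namespace Crest.Agent.H0254

open Filter MeasureTheory

noncomputable section

/-- log-likelihood ratio of the Laplace channel. -/
def hf (t x : ℝ) : ℝ := |x| - |x - t|

lemma hf_lip (t t' x x' : ℝ) : |hf t x - hf t' x'| ≤ 2 * |x - x'| + |t - t'| := by
  unfold hf
  have h1 : |(|x| - |x'|)| ≤ |x - x'| := abs_abs_sub_abs_le_abs_sub x x'
  have h2 : |(|x - t| - |x' - t'|)| ≤ |(x - t) - (x' - t')| := abs_abs_sub_abs_le_abs_sub _ _
  have h3 : |(x - t) - (x' - t')| ≤ |x - x'| + |t - t'| := by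
    have : (x - t) - (x' - t') = (x - x') - (t - t') := by ring
    rw [this]; exact abs_sub _ _
  have h4 : |x| - |x - t| - (|x'| - |x' - t'|) = (|x| - |x'|) - (|x - t| - |x' - t'|) := by ring
  rw [h4]
  have h5 := abs_sub (|x| - |x'|) (|x - t| - |x' - t'|)
  linarith

lemma abs_hf_le (t x : ℝ) : |hf t x| ≤ |t| := by
  unfold hf
  have := abs_abs_sub_abs_le_abs_sub x (x - t)
  simpa using this

lemma measurable_hf : Measurable (fun q : ℝ × ℝ => hf q.1 q.2) := by
  unfold hf; fun_prop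

variable {J : Type*} [DecidableEq J]

def Zp (p : Finset J → ℝ) (Λ : Finset J) (h : J → ℝ) : ℝ :=
  ∑ F ∈ Λ.powerset, (∏ j ∈ F, (Real.exp (h j) - 1)) * p F

def mean (p : Finset J → ℝ) (Λ : Finset J) (i : J) (h : J → ℝ) : ℝ :=
  Zp (fun F => p (insert i F)) Λ h / Zp p Λ h

def drift (p : Finset J → ℝ) (Λ : J → ℕ → Finset J) (i : J) (h : J → ℝ) : ℝ :=
  limsup (fun n => mean p (Λ i n) i h) atTop

def eul (p : Finset J → ℝ) (Λ : J → ℕ → Finset J) (δ : ℝ) (z : J → ℝ) : ℕ → J → ℝ
  | 0 => z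
  | k + 1 => fun i => eul p Λ δ z k i + δ * drift p Λ i (fun j => hf (k * δ) (eul p Λ δ z k j))

/-- centred value of the Euler scheme at integer time `T`, with step `2^{-T^2}`. -/
def gT (p : Finset J → ℝ) (Λ : J → ℕ → Finset J) (T : ℕ) (z : J → ℝ) (i : J) : ℝ :=
  eul p Λ ((2 : ℝ)⁻¹ ^ (T * T)) z (T * 2 ^ (T * T)) i - (T : ℝ) / 2

open Classical in
def rule (p : Finset J → ℝ) (Λ : J → ℕ → Finset J) (z : J → ℝ) (i : J) : Bool :=
  decide (∀ᶠ T : ℕ in atTop, 0 < gT p Λ T z i)

section transport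
variable {I : Type*} [DecidableEq I]

omit [DecidableEq J] [DecidableEq I] in
lemma Zp_map (e : I ↪ J) (p : Finset J → ℝ) (Λ : Finset I) (h : J → ℝ) :
    Zp p (Λ.map e) h = Zp (fun F => p (F.map e)) Λ (h ∘ e) := by
  classical
  unfold Zp
  symm
  refine Finset.sum_bij (fun F _ => F.map e) ?_ ?_ ?_ ?_
  · intro F hF
    rw [Finset.mem_powerset] at hF ⊢
    exact Finset.map_subset_map.2 hF
  · intro F _ F' _ hFF
    exact Finset.map_injective e hFF
  · intro F hF
    rw [Finset.mem_powerset] at hF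
    obtain ⟨u, hu, rfl⟩ := Finset.subset_map_iff.1 hF
    exact ⟨u, Finset.mem_powerset.2 hu, rfl⟩
  · intro F _
    simp [Finset.prod_map]

lemma mean_map (e : I ↪ J) (p : Finset J → ℝ) (Λ : Finset I) (i : I) (h : J → ℝ) :
    mean p (Λ.map e) (e i) h = mean (fun F => p (F.map e)) Λ i (h ∘ e) := by
  unfold mean
  rw [Zp_map, Zp_map]
  simp [Finset.map_insert]

variable (e : I ↪ J) (pJ : Finset J → ℝ) (pI : Finset I → ℝ) (ΛJ : J → ℕ → Finset J)
  (ΛI : I → ℕ → Finset I) (hp : ∀ F, pI F = pJ (F.map e))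
  (hΛ : ∀ i n, ΛJ (e i) n = (ΛI i n).map e)

include hp hΛ

lemma drift_map (i : I) (h : J → ℝ) : drift pJ ΛJ (e i) h = drift pI ΛI i (h ∘ e) := by
  unfold drift
  have : pI = fun F => pJ (F.map e) := funext hp
  simp only [hΛ, mean_map, this]

lemma eul_map (δ : ℝ) (z : J → ℝ) (k : ℕ) (i : I) :
    eul pJ ΛJ δ z k (e i) = eul pI ΛI δ (z ∘ e) k i := by
  induction k generalizing i with
  | zero => rfl
  | succ k ih =>
    simp only [eul]
    rw [ih, drift_map e pJ pI ΛJ ΛI hp hΛ]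
    congr 2
    congr 1
    funext j
    simp [ih]

lemma rule_map (z : J → ℝ) (i : I) : rule pJ ΛJ z (e i) = rule pI ΛI (z ∘ e) i := by
  have : ∀ T, gT pJ ΛJ T z (e i) = gT pI ΛI T (z ∘ e) i := fun T => by
    unfold gT
    rw [eul_map e pJ pI ΛJ ΛI hp hΛ]
  unfold rule
  congr 1
  simp only [this]

end transport

section meas
variable {Θ : Type*} [MeasurableSpace Θ] [Countable J]

omit [DecidableEq J] [Countable J] in
lemma measurable_Zp_fixed {p : Θ → Finset J → ℝ} (hp : ∀ F, Measurable fun θ => p θ F)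
    (Λ : Finset J) {h : Θ → J → ℝ} (hh : ∀ j, Measurable fun θ => h θ j) :
    Measurable fun θ => Zp (p θ) Λ (h θ) := by
  unfold Zp
  refine Finset.measurable_sum _ fun F _ => Measurable.mul ?_ (hp F)
  refine Finset.measurable_prod _ fun j _ => ?_
  exact ((hh j).exp).sub_const 1

/-- a function of `θ` and of a finset-valued measurable map. -/
lemma measurable_of_finset {β : Type*} [MeasurableSpace β] {L : Θ → Finset J}
    (hL : ∀ j, MeasurableSet {θ | j ∈ L θ}) {f : Finset J → Θ → β} (hf : ∀ s, Measurable (f s)) :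
    Measurable fun θ => f (L θ) θ := by
  intro B hB
  have : (fun θ => f (L θ) θ) ⁻¹' B = ⋃ s : Finset J, ({θ | L θ = s} ∩ f s ⁻¹' B) := by
    ext θ; simp
  rw [this]
  refine MeasurableSet.iUnion fun s => MeasurableSet.inter ?_ (hf s hB)
  have : {θ | L θ = s} = ⋂ j, (if j ∈ s then {θ | j ∈ L θ} else {θ | j ∈ L θ}ᶜ) := by
    ext θ
    simp only [Set.mem_ofPred_eq, Set.mem_iInter, Finset.ext_iff]
    refine forall_congr' fun j => ?_
    split_ifs with hj <;> simp [hj]
  rw [this]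
  refine MeasurableSet.iInter fun j => ?_
  split_ifs
  · exact hL j
  · exact (hL j).compl

variable {p : Θ → Finset J → ℝ} (hp : ∀ F, Measurable fun θ => p θ F)
  {Λ : Θ → J → ℕ → Finset J} (hΛ : ∀ i n j, MeasurableSet {θ | j ∈ Λ θ i n})
include hp hΛ

lemma measurable_drift (i : J) {h : Θ → J → ℝ} (hh : ∀ j, Measurable fun θ => h θ j) :
    Measurable fun θ => drift (p θ) (Λ θ) i (h θ) := by
  unfold drift
  refine Measurable.limsup fun n => ?_
  refine measurable_of_finset (f := fun s θ => mean (p θ) s i (h θ)) (hΛ i n) fun s => ?_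
  unfold mean
  exact (measurable_Zp_fixed (p := fun θ F => p θ (insert i F)) (fun F => hp _) s hh).div
    (measurable_Zp_fixed hp s hh)

lemma measurable_eul (δ : ℝ) {z : Θ → J → ℝ} (hz : ∀ j, Measurable fun θ => z θ j) (k : ℕ)
    (i : J) : Measurable fun θ => eul (p θ) (Λ θ) δ (z θ) k i := by
  induction k generalizing i with
  | zero => exact hz i
  | succ k ih =>
    simp only [eul]
    refine (ih i).add (Measurable.const_mul ?_ δ)
    refine measurable_drift hp hΛ i fun j => ?_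
    exact measurable_hf.comp (measurable_const.prodMk (ih j))

lemma measurable_gT (T : ℕ) {z : Θ → J → ℝ} (hz : ∀ j, Measurable fun θ => z θ j)
    (i : J) : Measurable fun θ => gT (p θ) (Λ θ) T (z θ) i :=
  (measurable_eul hp hΛ _ hz _ i).sub_const _

lemma measurable_rule {z : Θ → J → ℝ} (hz : ∀ j, Measurable fun θ => z θ j)
    (i : J) : Measurable fun θ => rule (p θ) (Λ θ) (z θ) i := by
  refine measurable_to_bool ?_
  have : (fun θ => rule (p θ) (Λ θ) (z θ) i) ⁻¹' {true} =
      ⋃ N : ℕ, ⋂ T : ℕ, ⋂ _ : N ≤ T, {θ | 0 < gT (p θ) (Λ θ) T (z θ) i} := by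
    ext θ
    simp [rule, eventually_atTop]
  rw [this]
  exact MeasurableSet.iUnion fun N => MeasurableSet.iInter fun T => MeasurableSet.iInter fun _ =>
    measurableSet_lt measurable_const (measurable_gT hp hΛ T hz i)

end meas

section lip
variable {p : Finset J → ℝ} {Λ : J → ℕ → Finset J}

lemma limsup_le_limsup_add {u v : ℕ → ℝ} {c : ℝ} (hu : ∀ n, 0 ≤ u n) (hv : ∀ n, v n ≤ 1)
    (h : ∀ n, u n ≤ v n + c) : limsup u atTop ≤ limsup v atTop + c := by
  have hvb : IsBoundedUnder (· ≤ ·) atTop v := isBoundedUnder_of ⟨1, hv⟩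
  have hvc : IsCoboundedUnder (· ≤ ·) atTop v :=
    isCoboundedUnder_le_of_le atTop (x := -c) fun n => by linarith [hu n, h n]
  rw [← limsup_add_const atTop v c hvb hvc]
  refine limsup_le_limsup (Eventually.of_forall h) ?_ ?_
  · exact isCoboundedUnder_le_of_le atTop hu
  · exact isBoundedUnder_of ⟨1 + c, fun n => by linarith [hv n]⟩

lemma drift_nonneg (h01 : ∀ s i h, mean p s i h ∈ Set.Icc (0 : ℝ) 1) (i : J) (h : J → ℝ) :
    0 ≤ drift p Λ i h := by
  unfold drift
  exact le_limsup_of_frequently_le (Eventually.of_forall fun n => (h01 _ _ _).1).frequently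
    (isBoundedUnder_of ⟨1, fun n => (h01 _ _ _).2⟩)

lemma drift_le_one (h01 : ∀ s i h, mean p s i h ∈ Set.Icc (0 : ℝ) 1) (i : J) (h : J → ℝ) :
    drift p Λ i h ≤ 1 := by
  unfold drift
  exact limsup_le_of_le (isCoboundedUnder_le_of_le atTop fun n => (h01 _ _ _).1)
    (Eventually.of_forall fun n => (h01 _ _ _).2)

/-- The uniform sup-norm Lipschitz property of the finite-volume means. -/
def LipMean (p : Finset J → ℝ) (C : ℝ) : Prop :=
  ∀ (s : Finset J) (i : J) (h h' : J → ℝ) (d : ℝ), 0 ≤ d → (∀ j ∈ s, |h j - h' j| ≤ d) →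
    |mean p s i h - mean p s i h'| ≤ C * d

lemma drift_lip (h01 : ∀ s i h, mean p s i h ∈ Set.Icc (0 : ℝ) 1) {C : ℝ} (hL : LipMean p C)
    (i : J) (h h' : J → ℝ) (d : ℝ) (hd : ∀ j, |h j - h' j| ≤ d) :
    |drift p Λ i h - drift p Λ i h'| ≤ C * d := by
  have hd0 : 0 ≤ d := (abs_nonneg _).trans (hd i)
  have key := fun n => abs_le.1 (hL (Λ i n) i h h' d hd0 fun j _ => hd j)
  rw [abs_le]
  unfold drift
  constructor
  · have := limsup_le_limsup_add (u := fun n => mean p (Λ i n) i h')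
      (v := fun n => mean p (Λ i n) i h) (c := C * d) (fun n => (h01 _ _ _).1)
      (fun n => (h01 _ _ _).2) (fun n => by linarith [(key n).1])
    linarith
  · have := limsup_le_limsup_add (u := fun n => mean p (Λ i n) i h)
      (v := fun n => mean p (Λ i n) i h') (c := C * d) (fun n => (h01 _ _ _).1)
      (fun n => (h01 _ _ _).2) (fun n => by linarith [(key n).2])
    linarith

end lip

end

end Crest.Agent.H0254
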