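import Crest.Agent.H0254.Ray

set_option autoImplicit false

namespace Crest.Agent.H0254

open Matrix

noncomputable section

open Classical in
/-- a Cauchy–Binet formula for `∑ z_e b_e b_eᵀ`. -/
lemma det_gram {n ι R : Type*} [Fintype n] [DecidableEq n] [DecidableEq ι] [CommRing R]
    (E : Finset ι) (z : ι → R) (b : ι → n → R) (good : Finset ι → Prop)
    (hD : ∀ f : n → ι, (∀ a, f a ∈ E) → Function.Injective f →
      (Matrix.of fun c a => b (f a) c).det ^ 2 = if good (Finset.univ.image f) then 1 else 0) :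
    (Matrix.of fun c a => ∑ e ∈ E, z e * b e a * b e c).det =
      ∑ T ∈ E.powerset.filter (fun T => good T ∧ T.card = Fintype.card n), ∏ e ∈ T, z e := by
  set G : (n → ι) → R := fun f =>
    (∏ a, z (f a) * b (f a) a) * (Matrix.of fun c a => b (f a) c).det with hG
  have h1 : (Matrix.of fun c a => ∑ e ∈ E, z e * b e a * b e c).det =
      ∑ f ∈ Fintype.piFinset fun _ : n => E, G f := by
    rw [det_apply']
    simp only [Matrix.of_apply, Finset.prod_univ_sum, Finset.mul_sum]
    rw [Finset.sum_comm]
    refine Finset.sum_congr rfl fun f _ => ?_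
    simp only [hG, det_apply', Matrix.of_apply, Finset.mul_sum, Finset.prod_mul_distrib]
    refine Finset.sum_congr rfl fun σ _ => by ring
  rw [h1, ← Finset.sum_fiberwise_of_maps_to (t := E.powerset) (g := fun f => Finset.univ.image f)
    (fun f hf => Finset.mem_powerset.2 (Finset.image_subset_iff.2 fun a _ =>
      Fintype.mem_piFinset.1 hf a)), Finset.sum_filter]
  refine Finset.sum_congr rfl fun T hT => ?_
  rw [Finset.mem_powerset] at hT
  by_cases hc : T.card = Fintype.card n
  · obtain ⟨f0⟩ : Nonempty (n ≃ T) := Fintype.card_eq.1 (by simp [hc])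
    have hinj : Function.Injective fun a => (f0 a : ι) :=
      Subtype.val_injective.comp f0.injective
    have himg : ∀ τ : Equiv.Perm n, (Finset.univ.image fun a => (f0 (τ a) : ι)) = T := by
      intro τ
      ext e
      simp only [Finset.mem_image, Finset.mem_univ, true_and]
      constructor
      · rintro ⟨a, rfl⟩; exact (f0 _).2
      · intro he; exact ⟨τ.symm (f0.symm ⟨e, he⟩), by simp⟩
    have h2 : ∑ f ∈ (Fintype.piFinset fun _ : n => E) with Finset.univ.image f = T, G f =
        ∑ τ : Equiv.Perm n, G fun a => (f0 (τ a) : ι) := by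
      symm
      refine Finset.sum_bij (fun τ _ => fun a => (f0 (τ a) : ι)) ?_ ?_ ?_ (fun _ _ => rfl)
      · intro τ _
        exact Finset.mem_filter.2 ⟨Fintype.mem_piFinset.2 fun a => hT (f0 _).2, himg τ⟩
      · intro τ _ τ' _ h
        ext a
        exact hinj (congrFun h a)
      · intro f hf
        obtain ⟨-, hf⟩ := Finset.mem_filter.1 hf
        have hmem : ∀ a, f a ∈ T := fun a => hf ▸ Finset.mem_image_of_mem f (Finset.mem_univ a)
        have hfi : Function.Injective f := by
          have := Finset.card_image_iff.1 (by rw [hf, hc]; rfl :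
            (Finset.univ.image f).card = (Finset.univ : Finset n).card)
          simpa using this
        refine ⟨Equiv.ofBijective (fun a => f0.symm ⟨f a, hmem a⟩)
          (Finite.injective_iff_bijective.1 fun a a' h => hfi ?_), Finset.mem_univ _, ?_⟩
        · simpa using h
        · funext a; simp
    have h3 : ∀ τ : Equiv.Perm n, G (fun a => (f0 (τ a) : ι)) =
        (∏ e ∈ T, z e) * (Matrix.of fun c a => b (f0 a) c).det *
          (Equiv.Perm.sign τ * ∏ a, b (f0 (τ a)) a) := by
      intro τ
      have e1 : (Matrix.of fun c a => b (f0 (τ a)) c) =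
          (Matrix.of fun c a => b (f0 a) c).submatrix id τ := rfl
      have e2 : ∏ a, z (f0 (τ a)) = ∏ e ∈ T, z e := by
        rw [← Finset.prod_coe_sort T]
        exact Fintype.prod_equiv (τ.trans f0) _ _ fun _ => rfl
      simp only [hG, e1, det_permute', Finset.prod_mul_distrib, e2]
      ring
    have h4 : ∑ τ : Equiv.Perm n, (Equiv.Perm.sign τ : R) * ∏ a, b (f0 (τ a)) a =
        (Matrix.of fun c a => b (f0 a) c).det := by
      rw [← det_transpose, det_apply']
      rfl
    have h5 := hD _ (fun a => hT (f0 a).2) hinj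
    have h6 := himg 1
    simp only [Equiv.Perm.coe_one, id] at h6
    rw [h2, Finset.sum_congr rfl fun τ _ => h3 τ, ← Finset.mul_sum, h4, mul_assoc, ← sq, h5, h6]
    by_cases hg : good T <;> simp [hg, hc]
  · rw [if_neg fun h => hc h.2]
    refine Finset.sum_eq_zero fun f hf => ?_
    obtain ⟨-, hf⟩ := Finset.mem_filter.1 hf
    have : ¬ Function.Injective f := fun hfi => hc (by
      rw [← hf, Finset.card_image_of_injective _ hfi]; rfl)
    obtain ⟨a, a', h, hne⟩ := Function.not_injective_iff.1 this
    simp only [hG]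
    rw [det_zero_of_column_eq hne (fun k => by simp [h]), mul_zero]

variable {V : Type*} [DecidableEq V]

def Conn (S : Finset V) (A : Finset (Sym2 V)) : Prop :=
  ∀ P : V → Prop, (∀ a b, s(a, b) ∈ A → (P a ↔ P b)) → ∀ a ∈ S, ∀ b ∈ S, (P a ↔ P b)

omit [DecidableEq V] in
lemma Conn.mono {S : Finset V} {A B : Finset (Sym2 V)} (h : Conn S A) (hAB : A ⊆ B) : Conn S B :=
  fun P hP => h P fun a b hab => hP a b (hAB hab)

open Classical in
def trees (S : Finset V) (E : Finset (Sym2 V)) : Finset (Finset (Sym2 V)) :=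
  E.powerset.filter fun T => Conn S T ∧ T.card + 1 = S.card

omit [DecidableEq V] in
lemma mem_trees {S : Finset V} {E T : Finset (Sym2 V)} :
    T ∈ trees S E ↔ T ⊆ E ∧ Conn S T ∧ T.card + 1 = S.card := by
  simp [trees]

def inc (K : Type*) [Ring K] (e : Sym2 V) (w : V) : K :=
  (if w = e.out.1 then 1 else 0) - (if w = e.out.2 then 1 else 0)

omit [DecidableEq V] in
lemma mk_out (e : Sym2 V) : s(e.out.1, e.out.2) = e := Quot.out_eq e

omit [DecidableEq V] in
lemma inv_of_out {A : Finset (Sym2 V)} {P : V → Prop} (h : ∀ e ∈ A, (P e.out.1 ↔ P e.out.2))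
    (a b : V) (hab : s(a, b) ∈ A) : P a ↔ P b := by
  have h1 := h _ hab
  have h2 := mk_out s(a, b)
  rw [Sym2.eq_iff] at h2
  rcases h2 with ⟨h2, h3⟩ | ⟨h2, h3⟩
  · rwa [h2, h3] at h1
  · rw [h2, h3] at h1; exact h1.symm

lemma sum_inc {K : Type*} [Ring K] {S : Finset V} {r : V} (φ : V → K) (hφ : φ r = 0)
    {e : Sym2 V} (he : e ∈ S.sym2) :
    ∑ c : S.erase r, φ c * inc K e c = φ e.out.1 - φ e.out.2 := by
  rw [Finset.sum_coe_sort (S.erase r) (fun c => φ c * inc K e c),
    Finset.sum_erase _ (by simp [hφ])]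
  rw [← mk_out e, Finset.mk_mem_sym2_iff] at he
  simp [inc, mul_sub, Finset.sum_sub_distrib, he.1, he.2]

/-- extension by zero -/
def ext0 {K : Type*} [Zero K] {s : Finset V} (x : s → K) (w : V) : K :=
  if h : w ∈ s then x ⟨w, h⟩ else 0

lemma ker_zero {K : Type*} [Ring K] {S : Finset V} {r : V} (hr : r ∈ S) {A : Finset (Sym2 V)}
    (hA : A ⊆ S.sym2) (hc : Conn S A) (x : S.erase r → K)
    (hx : ∀ e ∈ A, ∑ c : S.erase r, x c * inc K e c = 0) : x = 0 := by
  have h0 : ext0 x r = 0 := by simp [ext0]
  have h1 : ∀ c : S.erase r, ext0 x c = x c := fun c => by simp only [ext0, c.2, dite_true]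
  have h2 := hc (fun w => ext0 x w = 0) (inv_of_out fun e he => by
    have := sum_inc (S := S) (ext0 x) h0 (hA he)
    simp only [h1, hx e he] at this
    rw [sub_eq_zero.1 this.symm])
  funext c
  rw [← h1]
  exact (h2 c (Finset.mem_of_mem_erase c.2) r hr).2 h0

open Classical in
lemma det_inc_sq {S : Finset V} {r : V} (hr : r ∈ S) (f : S.erase r → Sym2 V)
    (hf : ∀ a, f a ∈ S.sym2) :
    (Matrix.of fun (c a : S.erase r) => inc ℂ (f a) c).det ^ 2 =
      if Conn S (Finset.univ.image f) then 1 else 0 := by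
  have hsub : Finset.univ.image f ⊆ S.sym2 := Finset.image_subset_iff.2 fun a _ => hf a
  split_ifs with hc
  · have hcast : ∀ (K : Type) [CommRing K],
        (Matrix.of fun (c a : S.erase r) => inc K (f a) c).det =
        ((Matrix.of fun (c a : S.erase r) => inc ℤ (f a) c).det : K) := by
      intro K _
      rw [Int.cast_det]
      congr 1
      ext c a
      simp [inc]
    set d := (Matrix.of fun (c a : S.erase r) => inc ℤ (f a) c).det with hd
    have : d.natAbs = 1 := by
      by_contra hne
      obtain ⟨p, hp, hpd⟩ := Nat.exists_prime_and_dvd hne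
      haveI := Fact.mk hp
      have h0 : (Matrix.of fun (c a : S.erase r) => inc (ZMod p) (f a) c).det = 0 := by
        rw [hcast, ZMod.intCast_zmod_eq_zero_iff_dvd]
        exact Int.natCast_dvd.2 hpd
      obtain ⟨x, hx0, hx⟩ := Matrix.exists_vecMul_eq_zero_iff.2 h0
      refine hx0 (ker_zero hr hsub hc x fun e he => ?_)
      obtain ⟨a, -, rfl⟩ := Finset.mem_image.1 he
      exact congrFun hx a
    rw [hcast ℂ]
    rcases Int.natAbs_eq_iff.1 this with h | h <;> rw [h] <;> simp
  · rw [sq_eq_zero_iff, ← Matrix.exists_vecMul_eq_zero_iff]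
    unfold Conn at hc
    push Not at hc
    obtain ⟨P, hP, a, ha, b, hb, hab⟩ := hc
    set φ : V → ℂ := fun w => if (P w ↔ P r) then 0 else 1 with hφ
    obtain ⟨c, hc, hcr⟩ : ∃ c ∈ S, ¬ (P c ↔ P r) := by
      by_cases h : P a ↔ P r
      · exact ⟨b, hb, by tauto⟩
      · exact ⟨a, ha, h⟩
    refine ⟨fun c => φ c, fun h => ?_, ?_⟩
    · have := congrFun h ⟨c, Finset.mem_erase.2 ⟨by rintro rfl; exact hcr Iff.rfl, hc⟩⟩
      simp [hφ, hcr] at this
    · funext a
      have := sum_inc (S := S) (r := r) φ (by simp [hφ]) (hf a)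
      have h2 := hP (f a).out.1 (f a).out.2 (by
        rw [mk_out]; exact Finset.mem_image_of_mem f (Finset.mem_univ a))
      simp only [hφ, h2, sub_self] at this
      exact this

theorem trees_stable {S : Finset V} (hS : S.Nonempty) {E : Finset (Sym2 V)} (hE : E ⊆ S.sym2)
    (hc : Conn S E) (z : Sym2 V → ℂ) (hz : ∀ e ∈ E, 0 < (z e).im) : Wf (trees S E) z ≠ 0 := by
  classical
  obtain ⟨r, hr⟩ := hS
  have h1 := det_gram (n := S.erase r) E z (fun e c => inc ℂ e c) (Conn S)
    fun f hf _ => by convert det_inc_sq hr f fun a => hE (hf a)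
  have h2 : Wf (trees S E) z =
      (Matrix.of fun (c a : S.erase r) => ∑ e ∈ E, z e * inc ℂ e a * inc ℂ e c).det := by
    rw [h1, Wf]
    refine Finset.sum_congr ?_ fun _ _ => rfl
    ext T
    have := Finset.card_erase_add_one hr
    simp only [mem_trees, Finset.mem_filter, Finset.mem_powerset, Fintype.card_coe]
    refine and_congr_right fun _ => and_congr_right fun _ => by omega
  rw [h2, Ne, ← Matrix.exists_vecMul_eq_zero_iff]
  rintro ⟨x, hx0, hx⟩
  set y : Sym2 V → ℂ := fun e => ∑ c : S.erase r, x c * inc ℂ e c with hy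
  have h3 : ∑ e ∈ E, z e * Complex.normSq (y e) = 0 := by
    have : ∑ a : S.erase r, (starRingEnd ℂ) (x a) * (x ᵥ* (Matrix.of fun (c a : S.erase r) =>
        ∑ e ∈ E, z e * inc ℂ e a * inc ℂ e c)) a = 0 := by simp [hx]
    rw [← this]
    simp only [vecMul, dotProduct, Matrix.of_apply, Complex.normSq_eq_conj_mul_self, hy, map_sum,
      Finset.mul_sum, Finset.sum_mul]
    rw [Finset.sum_comm]
    conv_rhs => rw [Finset.sum_comm]
    refine Finset.sum_congr rfl fun c _ => ?_
    rw [Finset.sum_comm]
    refine Finset.sum_congr rfl fun a _ => Finset.sum_congr rfl fun e _ => ?_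
    have : (starRingEnd ℂ) (inc ℂ e a) = inc ℂ e a := by
      unfold inc; split_ifs <;> simp
    rw [map_mul, this]
    ring
  have h4 := congrArg Complex.im h3
  simp only [Complex.im_sum, Complex.mul_im, Complex.ofReal_im, mul_zero, Complex.ofReal_re,
    zero_add, Complex.zero_im] at h4
  rw [Finset.sum_eq_zero_iff_of_nonneg
    fun e he => mul_nonneg (hz e he).le (Complex.normSq_nonneg _)] at h4
  refine hx0 (ker_zero hr hE hc x fun e he => ?_)
  have := h4 e he
  rw [mul_eq_zero, Complex.normSq_eq_zero] at this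
  exact this.resolve_left (hz e he).ne'

lemma trees_nonempty {S : Finset V} (hS : S.Nonempty) {E : Finset (Sym2 V)} (hE : E ⊆ S.sym2)
    (hc : Conn S E) : (trees S E).Nonempty := by
  rw [Finset.nonempty_iff_ne_empty]
  intro h
  have := trees_stable hS hE hc (fun _ => Complex.I) (by simp)
  simp [h, Wf] at this

lemma ray_trees {S : Finset V} (hS : S.Nonempty) {E : Finset (Sym2 V)} (hE : E ⊆ S.sym2)
    (hc : Conn S E) : Ray (trees S E) :=
  ray_of_stable fun z hz => trees_stable hS hE hc z fun e _ => hz e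

end

end Crest.Agent.H0254
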