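import Crest.Agent.H0254.Trees
import Crest.Prelude.Def_SpanningTrees

set_option autoImplicit false

namespace Crest.Agent.H0254

open Filter Topology Crest.ProbabilityR.SpanningTrees

noncomputable section

variable {V : Type*}

lemma mem_edgesIn {G : SimpleGraph V} {S : Finset V} {e : Sym2 V} :
    e ∈ edgesIn G S ↔ e ∈ S.sym2 ∧ e ∈ G.edgeSet := by
  unfold edgesIn
  simp only [Finset.mem_filter]

lemma edgesIn_sub (G : SimpleGraph V) (S : Finset V) : edgesIn G S ⊆ S.sym2 :=
  fun _ he => (mem_edgesIn.1 he).1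

lemma edgesIn_mono (G : SimpleGraph V) {S S' : Finset V} (h : S ⊆ S') :
    edgesIn G S ⊆ edgesIn G S' := fun _ he =>
  mem_edgesIn.2 ⟨Finset.sym2_mono h (mem_edgesIn.1 he).1, (mem_edgesIn.1 he).2⟩

lemma conn_iff {H : SimpleGraph V} {S : Finset V} {A : Finset (Sym2 V)} (hA : A ⊆ S.sym2)
    (hH : ∀ a ∈ S, ∀ b ∈ S, H.Adj a b ↔ s(a, b) ∈ A ∧ a ≠ b) :
    (H.induce (S : Set V)).Connected ↔ S.Nonempty ∧ Conn S A := by
  rw [SimpleGraph.connected_iff]
  constructor
  · rintro ⟨h1, ⟨a, ha⟩⟩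
    refine ⟨⟨a, ha⟩, fun P hP a ha b hb => ?_⟩
    obtain ⟨w⟩ := h1 ⟨a, ha⟩ ⟨b, hb⟩
    have : ∀ (x y : (S : Set V)) (_ : (H.induce (S : Set V)).Walk x y), P x ↔ P y := by
      intro x y w
      induction w with
      | nil => rfl
      | @cons x y _ hxy _ ih =>
        exact (hP _ _ ((hH _ x.2 _ y.2).1 hxy).1).trans ih
    exact this _ _ w
  · rintro ⟨⟨r, hr⟩, hc⟩
    refine ⟨fun a b => ?_, ⟨⟨r, hr⟩⟩⟩
    have := hc (fun w => ∃ h : w ∈ (S : Set V), (H.induce (S : Set V)).Reachable a ⟨w, h⟩) ?_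
      a a.2 b b.2
    · obtain ⟨_, h⟩ := this.1 ⟨a.2, .refl _⟩
      exact h
    · intro u v huv
      obtain ⟨hu, hv⟩ := Finset.mk_mem_sym2_iff.1 (hA huv)
      by_cases h : u = v
      · rw [h]
      have hadj : (H.induce (S : Set V)).Adj ⟨u, hu⟩ ⟨v, hv⟩ := (hH u hu v hv).2 ⟨huv, h⟩
      constructor
      · rintro ⟨_, h'⟩; exact ⟨hv, h'.trans hadj.reachable⟩
      · rintro ⟨_, h'⟩; exact ⟨hu, h'.trans hadj.symm.reachable⟩

lemma conn_edgesIn {G : SimpleGraph V} {S : Finset V} (h : (G.induce (S : Set V)).Connected) :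
    S.Nonempty ∧ Conn S (edgesIn G S) := by
  refine (conn_iff (edgesIn_sub G S) fun a ha b hb => ?_).1 h
  simp only [mem_edgesIn, Finset.mk_mem_sym2_iff, ha, hb, true_and, SimpleGraph.mem_edgeSet]
  exact ⟨fun h => ⟨h, h.ne⟩, fun h => h.1⟩

lemma isSpanningTreeOn_iff {G : SimpleGraph V} {S : Finset V} {A : Finset (Sym2 V)} :
    IsSpanningTreeOn G S A ↔ A ∈ trees S (edgesIn G S) := by
  rw [IsSpanningTreeOn, mem_trees]
  refine and_congr_right fun hA => ?_
  have hA' := hA.trans (edgesIn_sub G S)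
  have hcard : Nat.card ((SimpleGraph.fromEdgeSet (A : Set (Sym2 V))).induce (S : Set V)).edgeSet
      = A.card := by
    rw [Nat.card_coe_set_eq, ← Set.ncard_image_of_injective _
      (Sym2.map.injective (Subtype.val_injective (p := (· ∈ (S : Set V))))), ← Set.ncard_coe_finset]
    congr 1
    ext e
    constructor
    · rintro ⟨e', he', rfl⟩
      induction e' using Sym2.ind with
      | h a b => exact ((SimpleGraph.fromEdgeSet_adj _).1 he').1
    · intro he
      induction e using Sym2.ind with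
      | h a b =>
        obtain ⟨ha, hb⟩ := Finset.mk_mem_sym2_iff.1 (hA' he)
        exact ⟨s(⟨a, ha⟩, ⟨b, hb⟩), (SimpleGraph.fromEdgeSet_adj _).2
          ⟨he, ((G.mem_edgeSet).1 (mem_edgesIn.1 (hA he)).2).ne⟩, rfl⟩
  rw [SimpleGraph.isTree_iff_connected_and_card, hcard,
    conn_iff hA' fun a _ b _ => SimpleGraph.fromEdgeSet_adj _]
  have : Nat.card (S : Set V) = S.card := by simp
  rw [this]
  constructor
  · rintro ⟨⟨-, h1⟩, h2⟩; exact ⟨h1, h2⟩
  · rintro ⟨h1, h2⟩; exact ⟨⟨Finset.card_pos.1 (by omega), h1⟩, h2⟩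

variable [DecidableEq V]

def ratio (S : Finset V) (E F : Finset (Sym2 V)) : ℝ :=
  (((trees S E).filter (F ⊆ ·)).card : ℝ) / (trees S E).card

lemma ustContains_eq (G : SimpleGraph V) (S : Finset V) (F : Finset (Sym2 V)) :
    ustContains G S F = ratio S (edgesIn G S) F := by
  unfold ustContains ratio
  congr 3
  · ext A
    simp only [Finset.mem_filter, isSpanningTreeOn_iff, Finset.mem_powerset]
    exact ⟨fun h => h.2, fun h => ⟨(mem_trees.1 h.1).1, h⟩⟩
  · ext A
    simp only [Finset.mem_filter, isSpanningTreeOn_iff, Finset.mem_powerset]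
    exact ⟨fun h => h.2, fun h => ⟨(mem_trees.1 h).1, h⟩⟩

lemma ratio_nonneg (S : Finset V) (E F : Finset (Sym2 V)) : 0 ≤ ratio S E F := by
  unfold ratio; positivity

lemma ratio_le_one (S : Finset V) (E F : Finset (Sym2 V)) : ratio S E F ≤ 1 := by
  unfold ratio
  exact div_le_one_of_le₀ (by exact_mod_cast Finset.card_filter_le _ _) (by positivity)

lemma ratio_delete {S : Finset V} (hS : S.Nonempty) {E E0 F : Finset (Sym2 V)} (hE : E ⊆ S.sym2)
    (h0 : E0 ⊆ E) (hc : Conn S E0) (hF : F ⊆ E0) : ratio S E F ≤ ratio S E0 F := by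
  have h1 := (ray_trees hS hE (hc.mono h0)).neg_corr F (E \ E0)
    (Finset.disjoint_of_subset_right hF Finset.sdiff_disjoint)
  have h2 : (trees S E).filter (Disjoint (E \ E0) ·) = trees S E0 := by
    ext T
    simp only [Finset.mem_filter, mem_trees]
    constructor
    · rintro ⟨⟨a, b⟩, c⟩
      refine ⟨fun e he => ?_, b⟩
      by_contra h
      exact Finset.disjoint_left.1 c (Finset.mem_sdiff.2 ⟨a he, h⟩) he
    · rintro ⟨a, b⟩
      exact ⟨⟨a.trans h0, b⟩, Finset.disjoint_of_subset_right a Finset.sdiff_disjoint⟩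
  rw [h2] at h1
  have p1 : (0 : ℝ) < (trees S E).card := by
    exact_mod_cast (trees_nonempty hS hE (hc.mono h0)).card_pos
  have p2 : (0 : ℝ) < (trees S E0).card := by
    exact_mod_cast (trees_nonempty hS (h0.trans hE) hc).card_pos
  unfold ratio
  rw [div_le_div_iff₀ p1 p2, mul_comm _ ((trees S E).card : ℝ)]
  exact_mod_cast h1

lemma Conn.insert {S : Finset V} {T : Finset (Sym2 V)} (h : Conn S T) {u : V} (hu : u ∈ S)
    (v : V) : Conn (insert v S) (insert s(u, v) T) := by
  intro P hP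
  have h1 := h P fun a b hab => hP a b (Finset.mem_insert_of_mem hab)
  have h2 : ∀ a ∈ Insert.insert v S, P a ↔ P u := by
    intro a ha
    rcases Finset.mem_insert.1 ha with rfl | ha
    · exact (hP u a (Finset.mem_insert_self _ _)).symm
    · exact h1 a ha u hu
  exact fun a ha b hb => (h2 a ha).trans (h2 b hb).symm

lemma trees_leaf {S : Finset V} {E : Finset (Sym2 V)} (hE : E ⊆ S.sym2) {u v : V} (hu : u ∈ S)
    (hv : v ∉ S) :
    trees (insert v S) (insert s(u, v) E) = (trees S E).image (insert s(u, v)) := by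
  have hnot : ∀ T ⊆ E, s(u, v) ∉ T := fun T hT h =>
    hv (Finset.mk_mem_sym2_iff.1 (hE (hT h))).2
  ext T
  simp only [Finset.mem_image, mem_trees, Finset.card_insert_of_notMem hv]
  constructor
  · rintro ⟨h1, h2, h3⟩
    have hmem : s(u, v) ∈ T := by
      by_contra hn
      have := h2 (· = v) (fun a b hab => ?_) u (Finset.mem_insert_of_mem hu) v
        (Finset.mem_insert_self _ _)
      · exact hv (this.2 rfl ▸ hu)
      · rcases Finset.mem_insert.1 (h1 hab) with h | h
        · exact absurd (h ▸ hab) hn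
        · obtain ⟨ha, hb⟩ := Finset.mk_mem_sym2_iff.1 (hE h)
          exact ⟨fun h => absurd (h ▸ ha) hv, fun h => absurd (h ▸ hb) hv⟩
    have hsub : T.erase s(u, v) ⊆ E := fun e he =>
      (Finset.mem_insert.1 (h1 (Finset.mem_of_mem_erase he))).resolve_left
        (Finset.ne_of_mem_erase he)
    refine ⟨T.erase s(u, v), ⟨hsub, fun P hP a ha b hb => ?_, ?_⟩, Finset.insert_erase hmem⟩
    · have hne : ∀ a ∈ S, a ≠ v := fun a ha h => hv (h ▸ ha)
      have := h2 (fun w => P (if w = v then u else w)) (fun a b hab => ?_) a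
        (Finset.mem_insert_of_mem ha) b (Finset.mem_insert_of_mem hb)
      · simpa [hne a ha, hne b hb] using this
      · by_cases h : s(a, b) = s(u, v)
        · rw [Sym2.eq_iff] at h
          rcases h with ⟨rfl, rfl⟩ | ⟨rfl, rfl⟩ <;> simp [hne _ hu]
        · have h' := Finset.mem_erase.2 ⟨h, hab⟩
          obtain ⟨ha, hb⟩ := Finset.mk_mem_sym2_iff.1 (hE (hsub h'))
          simpa [hne a ha, hne b hb] using hP a b h'
    · have := Finset.card_erase_add_one hmem
      omega
  · rintro ⟨T, ⟨h1, h2, h3⟩, rfl⟩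
    refine ⟨Finset.insert_subset_insert _ h1, h2.insert hu v, ?_⟩
    rw [Finset.card_insert_of_notMem (hnot T h1), h3]

lemma ratio_leaf {S : Finset V} {E F : Finset (Sym2 V)} (hE : E ⊆ S.sym2) {u v : V} (hu : u ∈ S)
    (hv : v ∉ S) (hF : F ⊆ E) : ratio (insert v S) (insert s(u, v) E) F = ratio S E F := by
  have hnot : ∀ T ⊆ E, s(u, v) ∉ T := fun T hT h =>
    hv (Finset.mk_mem_sym2_iff.1 (hE (hT h))).2
  have hinj : Set.InjOn (insert s(u, v)) (trees S E : Set (Finset (Sym2 V))) := by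
    intro T hT T' hT' h
    rw [← Finset.erase_insert (hnot T (mem_trees.1 hT).1), h,
      Finset.erase_insert (hnot T' (mem_trees.1 hT').1)]
  unfold ratio
  rw [trees_leaf hE hu hv, Finset.filter_image, Finset.card_image_of_injOn hinj,
    Finset.card_image_of_injOn (hinj.mono (Finset.coe_subset.2 (Finset.filter_subset _ _)))]
  congr 3
  exact Finset.filter_congr fun T _ => Finset.subset_insert_iff_of_notMem (hnot F hF)

lemma ratio_anti (G : SimpleGraph V) {F : Finset (Sym2 V)} {S' : Finset V}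
    (hc' : Conn S' (edgesIn G S')) (n : ℕ) : ∀ S : Finset V, S ⊆ S' → S.card + n = S'.card →
    S.Nonempty → Conn S (edgesIn G S) → F ⊆ edgesIn G S →
    ratio S' (edgesIn G S') F ≤ ratio S (edgesIn G S) F := by
  induction n with
  | zero =>
    intro S hS hcard _ _ _
    rw [Finset.eq_of_subset_of_card_le hS (by omega)]
  | succ n ih =>
    intro S hS hcard hne hc hF
    obtain ⟨u, v, huv, hu, hv⟩ : ∃ u v, s(u, v) ∈ edgesIn G S' ∧ u ∈ S ∧ v ∉ S := by
      by_contra hcon
      push Not at hcon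
      obtain ⟨r, hr⟩ := hne
      have := hc' (· ∈ S) (fun a b hab => ⟨hcon a b hab, hcon b a (Sym2.eq_swap ▸ hab)⟩) r (hS hr)
      have := Finset.card_le_card (show S' ⊆ S from fun b hb => (this b hb).1 hr)
      omega
    have hvS' : v ∈ S' := (Finset.mk_mem_sym2_iff.1 (mem_edgesIn.1 huv).1).2
    have hsub : insert s(u, v) (edgesIn G S) ⊆ edgesIn G (insert v S) := by
      refine Finset.insert_subset (mem_edgesIn.2 ⟨Finset.mk_mem_sym2_iff.2
        ⟨Finset.mem_insert_of_mem hu, Finset.mem_insert_self _ _⟩, (mem_edgesIn.1 huv).2⟩)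
        (edgesIn_mono G (Finset.subset_insert _ _))
    refine (ih (insert v S) (Finset.insert_subset hvS' hS)
      (by rw [Finset.card_insert_of_notMem hv]; omega) (Finset.insert_nonempty _ _)
      ((hc.insert hu v).mono hsub) (hF.trans (edgesIn_mono G (Finset.subset_insert _ _)))).trans ?_
    rw [← ratio_leaf (edgesIn_sub G S) hu hv hF]
    exact ratio_delete (Finset.insert_nonempty _ _) (edgesIn_sub _ _) hsub (hc.insert hu v)
      (hF.trans (Finset.subset_insert _ _))

open Classical in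
def term (S : Finset V) (E F : Finset (Sym2 V)) : ℝ :=
  if S.Nonempty ∧ Conn S E ∧ F ⊆ E then ratio S E F else 1

def pG (G : SimpleGraph V) (F : Finset (Sym2 V)) : ℝ := ⨅ S : Finset V, term S (edgesIn G S) F

lemma term_nonneg (S : Finset V) (E F : Finset (Sym2 V)) : 0 ≤ term S E F := by
  unfold term; split_ifs
  · exact ratio_nonneg _ _ _
  · exact zero_le_one

theorem tendsto_ratio (G : SimpleGraph V) (S : ℕ → Finset V) (hmono : Monotone S)
    (hex : ∀ v, ∃ n, v ∈ S n) (hc : ∀ n, (G.induce (S n : Set V)).Connected)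
    (F : Finset (Sym2 V)) (hF : (F : Set (Sym2 V)) ⊆ G.edgeSet) :
    Tendsto (fun n => ratio (S n) (edgesIn G (S n)) F) atTop (𝓝 (pG G F)) := by
  have hev : ∀ s : Finset V, ∀ᶠ n in atTop, s ⊆ S n := by
    intro s
    have : ∀ v ∈ s, ∀ᶠ n in atTop, v ∈ S n := fun v _ => by
      obtain ⟨m, hm⟩ := hex v
      filter_upwards [eventually_ge_atTop m] with n hn using hmono hn hm
    filter_upwards [(eventually_all_finset s).2 this] with n hn using hn
  have hFev : ∀ᶠ n in atTop, F ⊆ edgesIn G (S n) := by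
    filter_upwards [hev (F.biUnion fun e => {e.out.1, e.out.2})] with n hn e he
    refine mem_edgesIn.2 ⟨?_, hF he⟩
    rw [← mk_out e, Finset.mk_mem_sym2_iff]
    exact ⟨hn (Finset.mem_biUnion.2 ⟨e, he, by simp⟩), hn (Finset.mem_biUnion.2 ⟨e, he, by simp⟩)⟩
  have hbdd : BddBelow (Set.range fun S : Finset V => term S (edgesIn G S) F) :=
    ⟨0, by rintro _ ⟨S, rfl⟩; exact term_nonneg _ _ _⟩
  rw [tendsto_order]
  constructor
  · intro a ha
    filter_upwards [hFev] with n hn
    refine ha.trans_le ((ciInf_le hbdd (S n)).trans_eq ?_)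
    exact if_pos ⟨(conn_edgesIn (hc n)).1, (conn_edgesIn (hc n)).2, hn⟩
  · intro a ha
    obtain ⟨s, hs⟩ := exists_lt_of_ciInf_lt ha
    filter_upwards [hev s] with n hn
    refine lt_of_le_of_lt ?_ hs
    unfold term
    split_ifs with h
    · exact ratio_anti G (conn_edgesIn (hc n)).2 ((S n).card - s.card) s hn
        (by have := Finset.card_le_card hn; omega) h.1 h.2.1 h.2.2
    · exact ratio_le_one _ _ _

end

end Crest.Agent.H0254
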